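import Vale.Agent.P085.Bdl.B1

set_option autoImplicit false
set_option linter.unusedSectionVars false

namespace Vale.Agent.P085.H598

open Vale.Agent.P085

variable {H : Type*} [NormedAddCommGroup H] [InnerProductSpace ℂ H] [CompleteSpace H]

theorem isFactor_of_isFac {Q : VonNeumannAlgebra H} (h : IsFac Q) : IsFactor Q := by
  intro z hz hz'
  refine h z hz fun y hy => ?_
  exact (VonNeumannAlgebra.mem_commutant_iff.1 hz' y hy).symm

theorem le_of_unit {M N : VonNeumannAlgebra H} {e : H →L[ℂ] H} (he2 : e * e = 0)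
    (hee : e * star e + star e * e = 1) (heM : e ∈ M) (heN : e ∈ N)
    (h : relComm M e ≤ N) : M ≤ N := by
  intro x hx
  obtain ⟨A, hA, B, hB, C, hC, D, hD, rfl⟩ := exists_entries he2 hee M heM hx
  have hs := star_mem heN
  exact add_mem (add_mem (add_mem (mul_mem (h hA) (mul_mem heN hs)) (mul_mem (h hB) heN))
    (mul_mem (h hC) hs)) (mul_mem (h hD) (mul_mem hs heN))

theorem infinite_relComm {Q : VonNeumannAlgebra H} {e : H →L[ℂ] H} (he2 : e * e = 0)
    (hee : e * star e + star e * e = 1) (heQ : e ∈ Q)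
    (h : ¬ FiniteDimensional ℂ (Submodule.span ℂ (Q : Set (H →L[ℂ] H)))) :
    ¬ FiniteDimensional ℂ (Submodule.span ℂ (relComm Q e : Set (H →L[ℂ] H))) := by
  intro hfin
  apply h
  obtain ⟨W, hW⟩ : ∃ W, W = Submodule.span ℂ (relComm Q e : Set (H →L[ℂ] H)) := ⟨_, rfl⟩
  rw [← hW] at hfin
  have hWm : ∀ A ∈ relComm Q e, A ∈ W := fun A hA => by rw [hW]; exact Submodule.subset_span hA
  let T : (H →L[ℂ] H) → Submodule ℂ (H →L[ℂ] H) := fun u =>
    W.map (LinearMap.mulRight ℂ u)
  have hT : ∀ u, FiniteDimensional ℂ (T u) := fun u => inferInstance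
  have hTm : ∀ A ∈ relComm Q e, ∀ u, A * u ∈ T u := fun A hA u =>
    ⟨A, hWm A hA, rfl⟩
  have h1 : Submodule.span ℂ (Q : Set (H →L[ℂ] H)) ≤
      T (e * star e) ⊔ T e ⊔ T (star e) ⊔ T (star e * e) := by
    rw [Submodule.span_le]
    intro x hx
    obtain ⟨A, hA, B, hB, C, hC, D, hD, rfl⟩ := exists_entries he2 hee Q heQ hx
    refine Submodule.add_mem_sup (Submodule.add_mem_sup (Submodule.add_mem_sup ?_ ?_) ?_) ?_
    · exact hTm A hA _
    · exact hTm B hB _
    · exact hTm C hC _
    · exact hTm D hD _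
  have := hT (e * star e)
  have := hT e
  have := hT (star e)
  have := hT (star e * e)
  exact Submodule.finiteDimensional_of_le h1

theorem isII1Factor_relComm {M : VonNeumannAlgebra H} (hM : IsII1Factor M) {e : H →L[ℂ] H}
    (he2 : e * e = 0) (hee : e * star e + star e * e = 1) (heM : e ∈ M) :
    IsII1Factor (relComm M e) := by
  obtain ⟨hf, hinf, ξ, hξ⟩ := hM
  refine ⟨isFactor_of_isFac (hf.isFac.relComm he2 hee heM), infinite_relComm he2 hee heM hinf, ξ,
    hξ.hasSum_one, fun x hx => hξ.tracial x (relComm_le M e hx),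
    fun x hx => hξ.faithful x (relComm_le M e hx)⟩

theorem exists_unit {M : VonNeumannAlgebra H} (hM : IsII1Factor M) :
    ∃ e ∈ M, e * e = 0 ∧ e * star e + star e * e = 1 := by
  obtain ⟨ξ, -, hII⟩ := hM.isII1
  obtain ⟨e, he, h1, h2, -⟩ := exists_split M hII.trace hII.fac hII.noMin (zero_mem M)
    (star_zero _) (zero_mem M)
  exact ⟨e, he, h1, h2⟩

theorem comm_of_gen {M : VonNeumannAlgebra H} {S : Set (H →L[ℂ] H)} (h : IsGeneratedBy M S)
    {z : H →L[ℂ] H} (hz : z ∈ starComm S) {m : H →L[ℂ] H} (hm : m ∈ M) : z * m = m * z :=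
  mem_genVN.1 (h.2 (genVN S) (subset_genVN S) hm) z hz

/-- an element of `M` commuting with the generators and their adjoints is a scalar -/
theorem scalar_of_gen {M : VonNeumannAlgebra H} (hM : IsII1Factor M) {S : Set (H →L[ℂ] H)}
    (h : IsGeneratedBy M S) {z : H →L[ℂ] H} (hzM : z ∈ M)
    (hz : ∀ s ∈ S, z * s = s * z ∧ z * star s = star s * z) : ∃ c : ℂ, z = c • 1 :=
  hM.1.isFac z hzM fun _ hy => comm_of_gen h hz hy

/-- matrix units with scalar relative commutant do not exist in an infinite dimensional algebra -/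
theorem false_of_scalar_relComm {M : VonNeumannAlgebra H}
    (hinf : ¬ FiniteDimensional ℂ (Submodule.span ℂ (M : Set (H →L[ℂ] H))))
    {e : H →L[ℂ] H} (he2 : e * e = 0) (hee : e * star e + star e * e = 1) (heM : e ∈ M)
    (h : ∀ z ∈ relComm M e, ∃ c : ℂ, z = c • 1) : False := by
  apply infinite_relComm he2 hee heM hinf
  have h1 : Submodule.span ℂ (relComm M e : Set (H →L[ℂ] H)) ≤
      Submodule.span ℂ {(1 : H →L[ℂ] H)} := by
    rw [Submodule.span_le]
    intro z hz
    obtain ⟨c, hc⟩ := h z hz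
    exact Submodule.mem_span_singleton.2 ⟨c, hc.symm⟩
  exact Submodule.finiteDimensional_of_le h1

theorem false_of_scalar {M : VonNeumannAlgebra H}
    (hinf : ¬ FiniteDimensional ℂ (Submodule.span ℂ (M : Set (H →L[ℂ] H))))
    (h : ∀ z ∈ M, ∃ c : ℂ, z = c • 1) : False := by
  apply hinf
  have h1 : Submodule.span ℂ (M : Set (H →L[ℂ] H)) ≤
      Submodule.span ℂ {(1 : H →L[ℂ] H)} := by
    rw [Submodule.span_le]
    intro z hz
    obtain ⟨c, hc⟩ := h z hz
    exact Submodule.mem_span_singleton.2 ⟨c, hc.symm⟩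
  exact Submodule.finiteDimensional_of_le h1

/-- a square-zero operator never generates a `II_1` factor -/
theorem not_generated_sq_zero {M : VonNeumannAlgebra H} (hM : IsII1Factor M) {x : H →L[ℂ] H}
    (hx : x * x = 0) : ¬ IsGeneratedBy M {x} := by
  intro hgen
  obtain ⟨ξ, -, hII⟩ := hM.isII1
  have ht := hII.trace
  have hxM : x ∈ M := hgen.1 rfl
  have hxs : star x ∈ M := star_mem hxM
  have hx' : star x * star x = 0 := by rw [← star_mul, hx, star_zero]
  obtain ⟨a, ha⟩ : ∃ a, a = x * star x + star x * x := ⟨_, rfl⟩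
  have haM : a ∈ M := ha ▸ add_mem (mul_mem hxM hxs) (mul_mem hxs hxM)
  have hax : a * x = x * a := by
    rw [ha, add_mul, mul_add, mul_assoc (star x), hx, mul_zero, add_zero, ← mul_assoc x x, hx,
      zero_mul, zero_add, mul_assoc]
  have haxs : a * star x = star x * a := by
    rw [ha, add_mul, mul_add, mul_assoc x (star x), hx', mul_zero, zero_add, ← mul_assoc (star x)
      (star x), hx', zero_mul, add_zero, mul_assoc]
  obtain ⟨c, hc⟩ := scalar_of_gen hM hgen haM (by
    rintro s rfl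
    exact ⟨hax, haxs⟩)
  have hct : c = 2 * vecTr ξ (star x * x) := by
    have h1 : vecTr ξ a = c := by
      rw [hc, ht.smul c 1 (one_mem M), ht.one, mul_one]
    rw [← h1, ha, ht.add _ (mul_mem hxM hxs) _ (mul_mem hxs hxM), ht.comm x hxM _ hxs]
    ring
  have hpos := ht.nonneg x hxM
  obtain ⟨r, hr⟩ : ∃ r : ℝ, vecTr ξ (star x * x) = (r : ℂ) :=
    ⟨_, (Complex.ext (Complex.ofReal_re _).symm (by
      rw [Complex.ofReal_im]; exact (Complex.le_def.1 hpos).2.symm) :
        vecTr ξ (star x * x) = (((vecTr ξ (star x * x)).re : ℝ) : ℂ))⟩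
  rw [hr] at hpos hct
  have hr0 : 0 ≤ r := by exact_mod_cast hpos
  by_cases h0 : r = 0
  · have hx0 : x = 0 := ht.faithful x hxM (by rw [hr, h0]; simp)
    apply false_of_scalar hM.2.1
    intro z hz
    apply scalar_of_gen hM hgen hz
    rintro s rfl
    subst hx0
    simp
  · have hrpos : 0 < 2 * r := by
      have := lt_of_le_of_ne hr0 (Ne.symm h0)
      linarith
    obtain ⟨l, hl⟩ : ∃ l : ℝ, l = (Real.sqrt (2 * r))⁻¹ := ⟨_, rfl⟩
    have hll : l * l * (2 * r) = 1 := by
      have h1 : Real.sqrt (2 * r) * Real.sqrt (2 * r) = 2 * r := Real.mul_self_sqrt hrpos.le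
      have h2 : Real.sqrt (2 * r) ≠ 0 := (Real.sqrt_pos.2 hrpos).ne'
      rw [hl]
      field_simp
      nlinarith [h1]
    have hl0 : (l : ℂ) ≠ 0 := by
      intro h
      have : l = 0 := by exact_mod_cast h
      rw [this] at hll
      simp at hll
    obtain ⟨e, he⟩ : ∃ e, e = (l : ℂ) • x := ⟨_, rfl⟩
    have hes : star e = (l : ℂ) • star x := by
      rw [he, star_smul]; simp
    have he2 : e * e = 0 := by rw [he, smul_mul_assoc, mul_smul_comm, hx]; simp
    have hee : e * star e + star e * e = 1 := by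
      rw [hes, he]
      have : (l : ℂ) • x * (l : ℂ) • star x + (l : ℂ) • star x * (l : ℂ) • x =
          ((l : ℂ) * l) • a := by
        rw [ha]
        simp only [smul_mul_assoc, mul_smul_comm, smul_smul, smul_add]
      rw [this, hc, smul_smul, hct]
      have h3 : (l : ℂ) * l * (2 * r) = 1 := by exact_mod_cast hll
      rw [h3, one_smul]
    have heM : e ∈ M := he ▸ vn_smul_mem M _ hxM
    apply false_of_scalar_relComm hM.2.1 he2 hee heM
    intro z hz
    have hxe : x = (l : ℂ)⁻¹ • e := by rw [he, smul_smul, inv_mul_cancel₀ hl0, one_smul]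
    have hxe' : star x = (l : ℂ)⁻¹ • star e := by
      rw [hes, smul_smul, inv_mul_cancel₀ hl0, one_smul]
    apply scalar_of_gen hM hgen hz.1
    rintro s rfl
    rw [hxe', hxe, mul_smul_comm, smul_mul_assoc, mul_smul_comm, smul_mul_assoc, hz.2.1, hz.2.2]
    exact ⟨rfl, rfl⟩

end Vale.Agent.P085.H598
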