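import Vale.Agent.P085.DefsFactor

set_option autoImplicit false

namespace Vale.Agent.P085.H598

variable {H : Type*} [NormedAddCommGroup H] [InnerProductSpace ℂ H] [CompleteSpace H]

/-- `p` is a partition of `1` into pairwise orthogonal projections of `M` that are pairwise
(Murray-von Neumann) equivalent in `M`; in a `II_1` factor they all have trace `1 / |ι|`. -/
structure IsPartition (M : VonNeumannAlgebra H) {ι : Type} [Fintype ι]
    (p : ι → (H →L[ℂ] H)) : Prop where
  mem : ∀ i, p i ∈ M
  proj : ∀ i, IsStarProjection (p i)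
  orth : ∀ i j, i ≠ j → p i * p j = 0
  sum : ∑ i, p i = 1
  equiv : ∀ i j, ∃ v ∈ M, star v * v = p i ∧ v * star v = p j

end Vale.Agent.P085.H598
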