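import Vale.Agent.P085.H598.Proj

set_option autoImplicit false
set_option linter.unusedSectionVars false
set_option linter.unusedSimpArgs false
set_option linter.unusedVariables false

namespace Vale.Agent.P085.H598

open Vale.Agent.P085 TopologicalSpace

variable {H : Type*} [NormedAddCommGroup H] [InnerProductSpace ℂ H] [CompleteSpace H]

/-- polar decomposition of `k e` inside `N` -/
theorem polar_mem (N : VonNeumannAlgebra H) {e k : H →L[ℂ] H} (he2 : e * e = 0)
    (hee : e * star e + star e * e = 1) (hke : k * e = e * k) (hkE : k * star e = star e * k)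
    (hk0 : 0 ≤ k) (hinj : ∀ w : H →L[ℂ] H, k * w = 0 → w = 0) (hP : e * star e ∈ N)
    (hX : k * e ∈ N) : e ∈ N ∧ k ∈ N := by
  have hks : star k = k := (IsSelfAdjoint.of_nonneg hk0).star_eq
  obtain ⟨P, hPd⟩ : ∃ P, P = e * star e := ⟨_, rfl⟩
  rw [← hPd] at hP
  have hPe : P * e = e := by rw [hPd]; exact mu_ese he2 hee
  have hPP : P * P = P := by rw [hPd]; exact mu_P_sq he2 hee
  have hkP : k * P = P * k := by rw [hPd, ← mul_assoc, hke, mul_assoc, hkE, mul_assoc]
  have hkk : k * k * P ∈ N := by
    have : k * k * P = k * e * star (k * e) := by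
      rw [star_mul, hks]
      calc k * k * P = k * (P * k) := by rw [mul_assoc, hkP]
        _ = k * e * (star e * k) := by rw [hPd]; simp only [mul_assoc]
    rw [this]
    exact mul_mem hX (star_mem hX)
  have heN : e ∈ N := by
    apply vn_mem_of_commutes
    intro z hz
    have hzP : P * z = z * P := vn_commutes N hP hz
    have hzk : k * k * P * z = z * (k * k * P) := vn_commutes N hkk hz
    have hzX : k * e * z = z * (k * e) := vn_commutes N hX hz
    have hc : Commute (k * k) (P * z) := by
      change k * k * (P * z) = P * z * (k * k)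
      calc k * k * (P * z) = z * (k * k * P) := by rw [← mul_assoc, hzk]
        _ = z * (P * (k * k)) := by rw [mul_assoc k, hkP, ← mul_assoc k, hkP, mul_assoc]
        _ = P * z * (k * k) := by rw [hzP, mul_assoc]
    have hc' : Commute k (P * z) := by
      have h1 : Commute (CFC.sqrt (k * k)) (P * z) := Commute.cfcₙ_nnreal hc _
      rwa [CFC.sqrt_mul_self k hk0] at h1
    have h2 : k * (z * e - e * z) = 0 := by
      have h3 : k * (z * e) = z * (k * e) := by
        calc k * (z * e) = k * (z * P * e) := by rw [mul_assoc z P e, hPe]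
          _ = k * (z * P) * e := (mul_assoc _ _ _).symm
          _ = (P * z) * k * e := by rw [← hzP, hc'.eq]
          _ = z * (P * k) * e := by rw [hzP, mul_assoc z]
          _ = z * (k * e) := by rw [← hkP, mul_assoc, mul_assoc, hPe]
      rw [mul_sub, h3, ← hzX, mul_assoc, sub_self]
    exact sub_eq_zero.1 (hinj _ h2)
  refine ⟨heN, mem_of_P_mul he2 hee N heN hke ?_⟩
  have : e * star e * k = k * e * star e := by
    rw [← hPd, ← hkP, hPd, mul_assoc]
  rw [this]
  exact mul_mem hX (star_mem heN)

theorem nonneg_one_add {t : H →L[ℂ] H} (ht : star t = t) (hn : ‖t‖ ≤ 1) :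
    0 ≤ 1 + t := by
  have h1 : -(algebraMap ℝ (H →L[ℂ] H) ‖t‖) ≤ t :=
    IsSelfAdjoint.neg_algebraMap_norm_le_self (a := t) ht
  have h2 : (0 : H →L[ℂ] H) ≤ t + ((‖t‖ : ℝ) : ℂ) • 1 := by
    rw [Algebra.algebraMap_eq_smul_one] at h1
    exact neg_le_iff_add_nonneg.1 h1
  have h3 : (0 : H →L[ℂ] H) ≤ ((1 - ‖t‖ : ℝ) : ℂ) • 1 :=
    smul_nonneg' (by linarith) zero_le_one
  have h4 : (1 : H →L[ℂ] H) + t = (t + ((‖t‖ : ℝ) : ℂ) • 1) + ((1 - ‖t‖ : ℝ) : ℂ) • 1 := by
    rw [Complex.ofReal_sub, Complex.ofReal_one]; module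
  rw [h4]
  exact add_nonneg h2 h3

/-- a cube root of unity -/
theorem exists_omega : ∃ w w' : ℂ, w * w = w' ∧ w * w' = 1 ∧ w' * w' = w ∧ 1 + w + w' = 0 ∧
    star w = w' ∧ star w' = w := by
  have h3 : ((Real.sqrt 3 : ℝ) : ℂ) * ((Real.sqrt 3 : ℝ) : ℂ) = 3 := by
    rw [← Complex.ofReal_mul, Real.mul_self_sqrt (by norm_num)]; norm_num
  have hI := Complex.I_mul_I
  refine ⟨(-1 + (Real.sqrt 3 : ℝ) * Complex.I) / 2, (-1 - (Real.sqrt 3 : ℝ) * Complex.I) / 2,
    ?_, ?_, ?_, ?_, ?_, ?_⟩
  · linear_combination (1 / 4 : ℂ) * (Complex.I * Complex.I) * h3 + (3 / 4 : ℂ) * hI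
  · linear_combination (-1 / 4 : ℂ) * (Complex.I * Complex.I) * h3 - (3 / 4 : ℂ) * hI
  · linear_combination (1 / 4 : ℂ) * (Complex.I * Complex.I) * h3 + (3 / 4 : ℂ) * hI
  · ring
  · apply Complex.ext <;> simp
  · apply Complex.ext <;> simp

/-- every `II_1` factor on a separable space is generated by a unitary of order two and a unitary
of order three -/
theorem exists_modular [SeparableSpace H] {M : VonNeumannAlgebra H} (hM : IsII1Factor M) :
    ∃ u v : H →L[ℂ] H, u ∈ unitary (H →L[ℂ] H) ∧ u ^ 2 = 1 ∧ v ∈ unitary (H →L[ℂ] H) ∧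
      v ^ 3 = 1 ∧ IsGeneratedBy M {u, v} := by
  obtain ⟨f, hfM, hf2, hff⟩ := exists_unit hM
  have hM1 := isII1Factor_relComm hM hf2 hff hfM
  obtain ⟨g, hg1, hg2, hgg⟩ := exists_unit hM1
  have hM2 := isII1Factor_relComm hM1 hg2 hgg hg1
  obtain ⟨t₀, ht₀, r₀, hr₀, ht₀s, hr₀s, hgen⟩ :=
    exists_pair_of_isSinglyGenerated (isSinglyGenerated_of_isII1Factor _ hM2)
  obtain ⟨t, ht, hts, htn, htg⟩ := exists_scaled_gen _ ht₀ ht₀s
  obtain ⟨r, hr, hrs, hrn, hrg⟩ := exists_scaled_gen _ hr₀ hr₀s
  obtain ⟨b, hb⟩ : ∃ b, b = 1 + (1 / 2 : ℂ) • r := ⟨_, rfl⟩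
  have hbP : b ∈ relComm (relComm M f) g := hb ▸ add_mem (one_mem _) (vn_smul_mem _ _ hr)
  have hrn2 : ‖(1 / 2 : ℂ) • r‖ ≤ 1 / 2 := by
    rw [norm_smul]
    have : ‖(1 / 2 : ℂ)‖ = 1 / 2 := by simp
    rw [this]; linarith
  have hb0 : 0 ≤ b := by
    rw [hb]
    apply nonneg_one_add _ (by linarith)
    rw [star_smul, hrs]; simp
  have hbs : star b = b := (IsSelfAdjoint.of_nonneg hb0).star_eq
  have hbinj : ∀ w : H →L[ℂ] H, b * w = 0 → w = 0 := by
    intro w hw
    rw [hb, add_mul, one_mul] at hw
    have h1 : w = -((1 / 2 : ℂ) • r * w) := eq_neg_of_add_eq_zero_left hw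
    have h2 : ‖w‖ ≤ 1 / 2 * ‖w‖ := by
      calc ‖w‖ = ‖-((1 / 2 : ℂ) • r * w)‖ := by rw [← h1]
        _ = ‖(1 / 2 : ℂ) • r * w‖ := norm_neg _
        _ ≤ ‖(1 / 2 : ℂ) • r‖ * ‖w‖ := norm_mul_le _ _
        _ ≤ 1 / 2 * ‖w‖ := by gcongr
    have h3 := norm_nonneg w
    exact norm_eq_zero.1 (by linarith)
  have hbn : ‖b‖ ≤ 3 / 2 := by
    rw [hb]
    refine (norm_add_le _ _).trans ?_
    have := norm_one_le' (H := H)
    linarith
  have hg1' : g ∈ relComm M f := hg1
  obtain ⟨hgM, hgf, hgF⟩ := hg1
  obtain ⟨⟨htM, htf, htF⟩, htgc, htG⟩ := ht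
  obtain ⟨⟨hbM, hbf, hbF⟩, hbgc, hbG⟩ := hbP
  have hGf : star g * f = f * star g := by
    have := congrArg star hgF
    simpa only [star_mul, star_star] using this.symm
  have hGF : star g * star f = star f * star g := by
    have := congrArg star hgf
    simpa only [star_mul, star_star] using this.symm
  have hFF := mu_star_sq hf2
  have hGG := mu_star_sq hg2
  have hfFf : f * (star f * f) = f := by rw [← mul_assoc]; exact mu_ese hf2 hff
  have hFfF : star f * (f * star f) = star f := by rw [← mul_assoc]; exact mu_ses hf2 hff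
  have hgGg : g * (star g * g) = g := by rw [← mul_assoc]; exact mu_ese hg2 hgg
  have hGgG : star g * (g * star g) = star g := by rw [← mul_assoc]; exact mu_ses hg2 hgg
  have hfM' := star_mem hfM
  have hgM' := star_mem hgM
  have hgGs : star (g * star g) = g * star g := by rw [star_mul, star_star]
  have hgGP : (g * star g) * (g * star g) = g * star g := mu_P_sq hg2 hgg
  -- the self-adjoint contraction
  obtain ⟨a, ha⟩ : ∃ a, a = (1 / 8 : ℂ) • (t * (g * star g) + b * (g + star g)) := ⟨_, rfl⟩
  have htgG : t * (g * star g) = g * star g * t := by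
    rw [← mul_assoc, htgc, mul_assoc, htG, mul_assoc]
  have has : star a = a := by
    have e1 : star (t * (g * star g)) = t * (g * star g) := by rw [star_mul, hgGs, hts, htgG]
    have e2 : star (b * (g + star g)) = b * (g + star g) := by
      rw [star_mul, star_add, star_star, hbs, add_comm (star g) g, add_mul, ← hbgc, ← hbG,
        ← mul_add]
    rw [ha, star_smul, star_add, e1, e2]
    simp
  have han : ‖a‖ ≤ 1 / 2 := by
    have h1 : ‖t * (g * star g)‖ ≤ 1 := by
      refine (norm_mul_le _ _).trans ?_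
      have : ‖g * star g‖ ≤ 1 := norm_proj_le (by rw [hgGs, hgGP])
      nlinarith [norm_nonneg t, norm_nonneg (g * star g)]
    have h2 : ‖b * (g + star g)‖ ≤ 3 / 2 := by
      refine (norm_mul_le _ _).trans ?_
      have : ‖g + star g‖ ≤ 1 := norm_le_one_of_unitary (by
        rw [star_add, star_star, add_mul, mul_add, mul_add, hg2, hGG, zero_add, add_zero,
          add_comm, hgg])
      nlinarith [norm_nonneg b, norm_nonneg (g + star g)]
    rw [ha, norm_smul]
    have h3 : ‖(1 / 8 : ℂ)‖ = 1 / 8 := by simp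
    have h4 := norm_add_le (t * (g * star g)) (b * (g + star g))
    rw [h3]
    linarith
  have haQ : a ∈ relComm M f := by
    have hgQ' : star g ∈ relComm M f := star_mem hg1'
    have htQ : t ∈ relComm M f := ⟨htM, htf, htF⟩
    have hbQ : b ∈ relComm M f := ⟨hbM, hbf, hbF⟩
    rw [ha]
    exact vn_smul_mem _ _ (add_mem (mul_mem htQ (mul_mem hg1' hgQ'))
      (mul_mem hbQ (add_mem hg1' hgQ')))
  -- the square root
  obtain ⟨s, hs⟩ : ∃ s, s = CFC.sqrt (1 - a * a) := ⟨_, rfl⟩
  have h1 : 0 ≤ 1 - a * a := by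
    have := star_mul_self_le_one (x := a) (by linarith)
    rw [has] at this
    exact sub_nonneg.2 this
  have hss : s * s = 1 - a * a := by rw [hs]; exact CFC.sqrt_mul_sqrt_self _ h1
  have hsst : star s = s := by
    rw [hs]; exact IsSelfAdjoint.of_nonneg (CFC.sqrt_nonneg _)
  have hsN : ∀ N : VonNeumannAlgebra H, a ∈ N → s ∈ N := by
    intro N haN
    rw [hs]; exact vn_sqrt_mem N (sub_mem (one_mem _) (mul_mem haN haN))
  have hsQ : s ∈ relComm M f := hsN _ haQ
  have hsa : s * a = a * s := by
    have h1 : Commute (1 - a * a) a := by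
      have : Commute a a := Commute.refl a
      exact (Commute.one_left a).sub_left (this.mul_left this)
    rw [hs]
    exact Commute.cfcₙ_nnreal h1 _
  obtain ⟨haM, haf, haF⟩ := haQ
  obtain ⟨hsM, hsf, hsF⟩ := hsQ
  obtain ⟨u, hu⟩ : ∃ u, u = a * (f * star f) + s * f + s * star f - a * (star f * f) := ⟨_, rfl⟩
  have hus : star u = u := by
    rw [hu]
    simp only [star_add, star_sub, star_mul, star_star, has, hsst]
    have e1 : f * star f * a = a * (f * star f) := by
      rw [mul_assoc, ← haF, ← mul_assoc, ← haf, mul_assoc]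
    have e2 : star f * f * a = a * (star f * f) := by
      rw [mul_assoc, ← haf, ← mul_assoc, ← haF, mul_assoc]
    rw [e1, e2, ← hsf, ← hsF]; abel
  have huu : u * u = 1 := by
    have h5 : a * a + s * s = 1 := by rw [hss]; abel
    have h6 : u * u = (a * a + s * s) * (f * star f + star f * f) := by
      rw [hu]
      have hsaz : ∀ z, s * (a * z) = a * (s * z) := fun z => by
        rw [← mul_assoc, hsa, mul_assoc]
      generalize star f = F at *
      have e7 : ∀ z, f * (a * z) = a * (f * z) := fun z => by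
        rw [← mul_assoc, ← haf, mul_assoc]
      have e8 : ∀ z, F * (a * z) = a * (F * z) := fun z => by
        rw [← mul_assoc, ← haF, mul_assoc]
      have e11 : ∀ z, f * (s * z) = s * (f * z) := fun z => by
        rw [← mul_assoc, ← hsf, mul_assoc]
      have e12 : ∀ z, F * (s * z) = s * (F * z) := fun z => by
        rw [← mul_assoc, ← hsF, mul_assoc]
      have r1 : ∀ z, f * (f * z) = 0 := fun z => by rw [← mul_assoc, hf2, zero_mul]
      have r2 : ∀ z, F * (F * z) = 0 := fun z => by rw [← mul_assoc, hFF, zero_mul]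
      simp only [mul_add, add_mul, mul_sub, sub_mul, mul_assoc, e7, e8, e11, e12, r1, r2, hf2,
        hFF, hfFf, hFfF, hsaz, mul_zero, add_zero, zero_add, sub_zero, zero_sub]
      abel
    rw [h6, h5, hff, one_mul]
  -- the unitary of order three
  obtain ⟨w, w', hw1, hw2, hw3, hw4, hw5, hw6⟩ := exists_omega
  obtain ⟨q0, hq0⟩ : ∃ q, q = star f * f := ⟨_, rfl⟩
  obtain ⟨q1, hq1⟩ : ∃ q, q = f * star f * (g * star g) := ⟨_, rfl⟩
  obtain ⟨q2, hq2⟩ : ∃ q, q = f * star f * (star g * g) := ⟨_, rfl⟩
  have hfFgG : f * star f * (g * star g) = g * star g * (f * star f) := by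
    have : f * star f * g = g * (f * star f) := by
      rw [mul_assoc, ← hgF, ← mul_assoc, ← hgf, mul_assoc]
    have h' : f * star f * star g = star g * (f * star f) := by
      rw [mul_assoc, ← hGF, ← mul_assoc, ← hGf, mul_assoc]
    rw [← mul_assoc, this, mul_assoc, h', mul_assoc]
  have hfFGg : f * star f * (star g * g) = star g * g * (f * star f) := by
    have : f * star f * g = g * (f * star f) := by
      rw [mul_assoc, ← hgF, ← mul_assoc, ← hgf, mul_assoc]
    have h' : f * star f * star g = star g * (f * star f) := by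
      rw [mul_assoc, ← hGF, ← mul_assoc, ← hGf, mul_assoc]
    rw [← mul_assoc, h', mul_assoc, this, mul_assoc]
  have hfP : f * star f * (f * star f) = f * star f := mu_P_sq hf2 hff
  have hGgP : star g * g * (star g * g) = star g * g := by rw [mul_assoc, hgGg]
  have hFfP : star f * f * (star f * f) = star f * f := by rw [mul_assoc, hfFf]
  have h12 : g * star g * (star g * g) = 0 := by
    rw [mul_assoc, ← mul_assoc (star g), hGG, zero_mul, mul_zero]
  have h21 : star g * g * (g * star g) = 0 := by
    rw [mul_assoc, ← mul_assoc g, hg2, zero_mul, mul_zero]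
  have h01 : star f * f * (f * star f) = 0 := by
    rw [mul_assoc, ← mul_assoc f, hf2, zero_mul, mul_zero]
  have h10 : f * star f * (star f * f) = 0 := by
    rw [mul_assoc, ← mul_assoc (star f), hFF, zero_mul, mul_zero]
  have q00 : q0 * q0 = q0 := by rw [hq0]; exact hFfP
  have q11 : q1 * q1 = q1 := by
    rw [hq1]
    nth_rw 1 [hfFgG]
    rw [mul_assoc, ← mul_assoc (f * star f), hfP, hfFgG, ← mul_assoc, hgGP]
  have q22 : q2 * q2 = q2 := by
    rw [hq2]
    nth_rw 1 [hfFGg]
    rw [mul_assoc, ← mul_assoc (f * star f), hfP, hfFGg, ← mul_assoc, hGgP]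
  have q12 : q1 * q2 = 0 := by
    rw [hq1, hq2, hfFGg, mul_assoc, ← mul_assoc (g * star g), h12, zero_mul, mul_zero]
  have q21 : q2 * q1 = 0 := by
    rw [hq1, hq2, hfFgG, mul_assoc, ← mul_assoc (star g * g), h21, zero_mul, mul_zero]
  have q01 : q0 * q1 = 0 := by rw [hq0, hq1, ← mul_assoc, h01, zero_mul]
  have q02 : q0 * q2 = 0 := by rw [hq0, hq2, ← mul_assoc, h01, zero_mul]
  have q10 : q1 * q0 = 0 := by rw [hq0, hq1, hfFgG, mul_assoc, h10, mul_zero]
  have q20 : q2 * q0 = 0 := by rw [hq0, hq2, hfFGg, mul_assoc, h10, mul_zero]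
  have q0s : star q0 = q0 := by rw [hq0, star_mul, star_star]
  have q1s : star q1 = q1 := by
    rw [hq1, star_mul, hgGs, star_mul, star_star, hfFgG]
  have q2s : star q2 = q2 := by
    rw [hq2, star_mul, star_mul, star_star, star_mul, star_star, hfFGg]
  have hsum : q0 + q1 + q2 = 1 := by
    rw [hq0, hq1, hq2, add_assoc, ← mul_add, hgg, mul_one, add_comm, hff]
  obtain ⟨v, hv⟩ : ∃ v, v = q0 + w • q1 + w' • q2 := ⟨_, rfl⟩
  have hvv : v * v = q0 + w' • q1 + w • q2 := by
    rw [hv]
    simp only [add_mul, mul_add, smul_mul_assoc, mul_smul_comm, smul_smul, q00, q11, q22, q12,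
      q21, q01, q02, q10, q20, smul_zero, add_zero, zero_add, hw1, hw3]
  have hvs : star v = q0 + w' • q1 + w • q2 := by
    rw [hv]
    simp only [star_add, star_smul, q0s, q1s, q2s, hw5, hw6]
  have hw2' : w' * w = 1 := by rw [mul_comm]; exact hw2
  have hvvs : v * star v = 1 := by
    rw [hvs, hv, ← hsum]
    simp only [add_mul, mul_add, smul_mul_assoc, mul_smul_comm, smul_smul, q00, q11, q22, q12,
      q21, q01, q02, q10, q20, smul_zero, add_zero, zero_add, hw2, hw2', one_smul]
  have hvsv : star v * v = 1 := by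
    rw [hvs, hv, ← hsum]
    simp only [add_mul, mul_add, smul_mul_assoc, mul_smul_comm, smul_smul, q00, q11, q22, q12,
      q21, q01, q02, q10, q20, smul_zero, add_zero, zero_add, hw2, hw2', one_smul]
  have huM : u ∈ M := by
    rw [hu]
    exact sub_mem (add_mem (add_mem (mul_mem haM (mul_mem hfM hfM')) (mul_mem hsM hfM))
      (mul_mem hsM hfM')) (mul_mem haM (mul_mem hfM' hfM))
  have hvM : v ∈ M := by
    rw [hv, hq0, hq1, hq2]
    exact add_mem (add_mem (mul_mem hfM' hfM) (vn_smul_mem M _ (mul_mem (mul_mem hfM hfM')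
      (mul_mem hgM hgM')))) (vn_smul_mem M _ (mul_mem (mul_mem hfM hfM') (mul_mem hgM' hgM)))
  refine ⟨u, v, ?_, by rw [pow_two, huu], ?_, ?_, ?_, ?_⟩
  · rw [Unitary.mem_iff, hus]
    exact ⟨huu, huu⟩
  · rw [Unitary.mem_iff]
    exact ⟨hvsv, hvvs⟩
  · rw [pow_succ, pow_two, hvv, ← hvs, hvsv]
  · rintro z (rfl | rfl)
    · exact huM
    · exact hvM
  · intro N hN
    have huN : u ∈ N := hN (by simp)
    have hvN : v ∈ N := hN (by simp)
    have hvsN : star v ∈ N := star_mem hvN
    have hq0N : q0 ∈ N := by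
      have h7 : (3 : ℂ) • q0 = 1 + v + star v := by
        rw [hvs, hv, ← hsum]
        have : (3 : ℂ) • q0 = (3 : ℂ) • q0 + (1 + w + w') • (q1 + q2) := by
          rw [hw4, zero_smul, add_zero]
        rw [this]; module
      have h8 : q0 = (1 / 3 : ℂ) • (1 + v + star v) := by
        rw [← h7, smul_smul]; norm_num
      rw [h8]
      exact vn_smul_mem N _ (add_mem (add_mem (one_mem N) hvN) hvsN)
    have hq1N : q1 ∈ N := by
      have h7 : (3 : ℂ) • q1 = 1 + w' • v + w • star v := by
        rw [hvs, hv, ← hsum]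
        have e1 : w' • (q0 + w • q1 + w' • q2) + w • (q0 + w' • q1 + w • q2) =
            (w' + w) • q0 + (2 : ℂ) • q1 + (w + w') • q2 := by
          simp only [smul_add, smul_smul, hw1, hw2, hw2', hw3]
          module
        have e2 : (3 : ℂ) • q1 = (1 + w + w') • q0 + (3 : ℂ) • q1 + (1 + w + w') • q2 := by
          rw [hw4, zero_smul, zero_smul]; abel
        rw [add_assoc, e1, e2]; module
      have h8 : q1 = (1 / 3 : ℂ) • (1 + w' • v + w • star v) := by
        rw [← h7, smul_smul]; norm_num
      rw [h8]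
      exact vn_smul_mem N _ (add_mem (add_mem (one_mem N) (vn_smul_mem N _ hvN))
        (vn_smul_mem N _ hvsN))
    have hfFN : f * star f ∈ N := by
      have : f * star f = 1 - q0 := by rw [hq0, ← hff]; abel
      rw [this]
      exact sub_mem (one_mem N) hq0N
    -- corners of u
    have hufF : f * star f * u * (f * star f) = f * star f * a := by
      rw [hu]
      generalize star f = F at *
      have e7 : ∀ z, f * (a * z) = a * (f * z) := fun z => by
        rw [← mul_assoc, ← haf, mul_assoc]
      have e8 : ∀ z, F * (a * z) = a * (F * z) := fun z => by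
        rw [← mul_assoc, ← haF, mul_assoc]
      have e11 : ∀ z, f * (s * z) = s * (f * z) := fun z => by
        rw [← mul_assoc, ← hsf, mul_assoc]
      have e12 : ∀ z, F * (s * z) = s * (F * z) := fun z => by
        rw [← mul_assoc, ← hsF, mul_assoc]
      have r1 : ∀ z, f * (f * z) = 0 := fun z => by rw [← mul_assoc, hf2, zero_mul]
      have r2 : ∀ z, F * (F * z) = 0 := fun z => by rw [← mul_assoc, hFF, zero_mul]
      have r4 : ∀ z, F * (f * (F * z)) = F * z := fun z => by
        rw [← mul_assoc f, ← mul_assoc, hFfF]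
      simp only [mul_add, add_mul, mul_sub, sub_mul, mul_assoc, e7, e8, e11, e12, r1, r2, r4, hf2,
        hFF, hfFf, hFfF, mul_zero, add_zero, zero_add, sub_zero, zero_sub, ← haF, ← haf]
    have hufs : f * star f * u * (star f * f) = s * f := by
      rw [hu]
      generalize star f = F at *
      have e7 : ∀ z, f * (a * z) = a * (f * z) := fun z => by
        rw [← mul_assoc, ← haf, mul_assoc]
      have e8 : ∀ z, F * (a * z) = a * (F * z) := fun z => by
        rw [← mul_assoc, ← haF, mul_assoc]
      have e11 : ∀ z, f * (s * z) = s * (f * z) := fun z => by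
        rw [← mul_assoc, ← hsf, mul_assoc]
      have e12 : ∀ z, F * (s * z) = s * (F * z) := fun z => by
        rw [← mul_assoc, ← hsF, mul_assoc]
      have r1 : ∀ z, f * (f * z) = 0 := fun z => by rw [← mul_assoc, hf2, zero_mul]
      have r2 : ∀ z, F * (F * z) = 0 := fun z => by rw [← mul_assoc, hFF, zero_mul]
      have r3 : ∀ z, f * (F * (f * z)) = f * z := fun z => by
        rw [← mul_assoc F, ← mul_assoc, hfFf]
      simp only [mul_add, add_mul, mul_sub, sub_mul, mul_assoc, e7, e8, e11, e12, r1, r2, r3, hf2,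
        hFF, hfFf, hFfF, mul_zero, add_zero, zero_add, sub_zero, zero_sub]
    have hsfN : s * f ∈ N := by
      rw [← hufs]
      refine mul_mem (mul_mem hfFN huN) ?_
      rw [← hq0]; exact hq0N
    have hafN : f * star f * a ∈ N := by
      rw [← hufF]
      exact mul_mem (mul_mem hfFN huN) hfFN
    -- f from the polar decomposition
    have hs0 : 0 ≤ s := by rw [hs]; exact CFC.sqrt_nonneg _
    obtain ⟨hfN, hsN'⟩ := polar_mem N hf2 hff hsf hsF hs0
      (fun z hz => eq_zero_of_sqrt_mul hss han hz) hfFN hsfN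
    have haN : a ∈ N := mem_of_P_mul hf2 hff N hfN haf hafN
    have hgGN : g * star g ∈ N := by
      apply mem_of_P_mul hf2 hff N hfN
      · rw [mul_assoc, hGf, ← mul_assoc, hgf, mul_assoc]
      · rw [← hq1]; exact hq1N
    have hGgN : star g * g ∈ N := by
      rw [← mu_one_sub hgg]; exact sub_mem (one_mem N) hgGN
    have hbgN : b * g ∈ N := by
      have : b * g = (8 : ℂ) • (g * star g * a * (star g * g)) := by
        rw [ha]
        have h9 : g * star g * (t * (g * star g) + b * (g + star g)) * (star g * g) = b * g := by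
          generalize star g = G at *
          have e7 : ∀ z, g * (t * z) = t * (g * z) := fun z => by
            rw [← mul_assoc, ← htgc, mul_assoc]
          have e8 : ∀ z, G * (t * z) = t * (G * z) := fun z => by
            rw [← mul_assoc, ← htG, mul_assoc]
          have e11 : ∀ z, g * (b * z) = b * (g * z) := fun z => by
            rw [← mul_assoc, ← hbgc, mul_assoc]
          have e12 : ∀ z, G * (b * z) = b * (G * z) := fun z => by
            rw [← mul_assoc, ← hbG, mul_assoc]
          have r1 : ∀ z, g * (g * z) = 0 := fun z => by rw [← mul_assoc, hg2, zero_mul]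
          have r2 : ∀ z, G * (G * z) = 0 := fun z => by rw [← mul_assoc, hGG, zero_mul]
          have r3 : ∀ z, g * (G * (g * z)) = g * z := fun z => by
            rw [← mul_assoc G, ← mul_assoc, hgGg]
          simp only [mul_add, add_mul, mul_assoc, e7, e8, e11, e12, r1, r2, r3, hg2,
            hGG, hgGg, hGgG, mul_zero, add_zero, zero_add]
        rw [mul_smul_comm, smul_mul_assoc, h9, smul_smul]
        norm_num
      rw [this]
      exact vn_smul_mem N _ (mul_mem (mul_mem hgGN haN) hGgN)
    obtain ⟨hgN, hbN⟩ := polar_mem N hg2 hgg hbgc hbG hb0 hbinj hgGN hbgN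
    have htN : t ∈ N := by
      apply mem_of_P_mul hg2 hgg N hgN htgc
      have : g * star g * t = (8 : ℂ) • (g * star g * a * (g * star g)) := by
        rw [ha]
        have h9 : g * star g * (t * (g * star g) + b * (g + star g)) * (g * star g) =
            g * star g * t := by
          generalize star g = G at *
          have e7 : ∀ z, g * (t * z) = t * (g * z) := fun z => by
            rw [← mul_assoc, ← htgc, mul_assoc]
          have e8 : ∀ z, G * (t * z) = t * (G * z) := fun z => by
            rw [← mul_assoc, ← htG, mul_assoc]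
          have e11 : ∀ z, g * (b * z) = b * (g * z) := fun z => by
            rw [← mul_assoc, ← hbgc, mul_assoc]
          have e12 : ∀ z, G * (b * z) = b * (G * z) := fun z => by
            rw [← mul_assoc, ← hbG, mul_assoc]
          have r1 : ∀ z, g * (g * z) = 0 := fun z => by rw [← mul_assoc, hg2, zero_mul]
          have r2 : ∀ z, G * (G * z) = 0 := fun z => by rw [← mul_assoc, hGG, zero_mul]
          have r3 : ∀ z, g * (G * (g * z)) = g * z := fun z => by
            rw [← mul_assoc G, ← mul_assoc, hgGg]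
          have r4 : ∀ z, G * (g * (G * z)) = G * z := fun z => by
            rw [← mul_assoc g, ← mul_assoc, hGgG]
          simp only [mul_add, add_mul, mul_assoc, e7, e8, e11, e12, r1, r2, r3, r4, hg2,
            hGG, hgGg, hGgG, mul_zero, add_zero, zero_add, ← htG, ← htgc]
        rw [mul_smul_comm, smul_mul_assoc, h9, smul_smul]
        norm_num
      rw [this]
      exact vn_smul_mem N _ (mul_mem (mul_mem hgGN haN) hgGN)
    have hrN : r ∈ N := by
      have : r = (2 : ℂ) • (b - 1) := by
        rw [hb, add_sub_cancel_left, smul_smul]; norm_num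
      rw [this]
      exact vn_smul_mem N _ (sub_mem hbN (one_mem N))
    apply le_of_unit hf2 hff hfM hfN
    apply le_of_unit hg2 hgg hg1' hgN
    exact hgen N (htg N htN) (hrg N hrN)

end Vale.Agent.P085.H598
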