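import Vale.Agent.P085.H598.Basic

set_option autoImplicit false
set_option linter.unusedSectionVars false
set_option linter.unusedSimpArgs false
set_option linter.unusedVariables false

namespace Vale.Agent.P085.H598

open Vale.Agent.P085 TopologicalSpace

variable {H : Type*} [NormedAddCommGroup H] [InnerProductSpace ℂ H] [CompleteSpace H]

/-- every `II_1` factor has a generator `x` with `x ^ 3 = 0` -/
theorem exists_nilpotent [SeparableSpace H] {M : VonNeumannAlgebra H} (hM : IsII1Factor M) :
    ∃ x : H →L[ℂ] H, x * x * x = 0 ∧ IsGeneratedBy M {x} := by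
  obtain ⟨f, hfM, hf2, hff⟩ := exists_unit hM
  have hM1 := isII1Factor_relComm hM hf2 hff hfM
  obtain ⟨g, hg1, hg2, hgg⟩ := exists_unit hM1
  have hM2 := isII1Factor_relComm hM1 hg2 hgg hg1
  obtain ⟨y, hy, hyN⟩ := isSinglyGenerated_of_isII1Factor _ hM2
  have hy2 : y ∈ relComm (relComm M f) g := hy rfl
  obtain ⟨hy1, hyg, hyG⟩ := hy2
  obtain ⟨hyM, hyf, hyF⟩ := hy1
  obtain ⟨hgM, hgf, hgF⟩ := hg1
  have hGf : star g * f = f * star g := by
    have := congrArg star hgF
    simpa only [star_mul, star_star] using this.symm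
  have hGF : star g * star f = star f * star g := by
    have := congrArg star hgf
    simpa only [star_mul, star_star] using this.symm
  have hFF := mu_star_sq hf2
  have hGG := mu_star_sq hg2
  have hfFf : f * (star f * f) = f := by rw [← mul_assoc]; exact mu_ese hf2 hff
  have hFfF : star f * (f * star f) = star f := by rw [← mul_assoc]; exact mu_ses hf2 hff
  have hgGg : g * (star g * g) = g := by rw [← mul_assoc]; exact mu_ese hg2 hgg
  have hGgG : star g * (g * star g) = star g := by rw [← mul_assoc]; exact mu_ses hg2 hgg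
  have hfM' := star_mem hfM
  have hgM' := star_mem hgM
  obtain ⟨x, hx⟩ : ∃ x, x = g + f * (star g * g) + y * (f * g) := ⟨_, rfl⟩
  have hxM : x ∈ M := by
    rw [hx]
    exact add_mem (add_mem hgM (mul_mem hfM (mul_mem hgM' hgM))) (mul_mem hyM (mul_mem hfM hgM))
  -- the algebra
  have key : x * x = f * g ∧ x * x * x = 0 := by
    refine ⟨?_, ?_⟩
    · rw [hx]
      generalize star f = F at *
      generalize star g = G at *
      have r1 : ∀ z, f * (f * z) = 0 := fun z => by rw [← mul_assoc, hf2, zero_mul]
      have r2 : ∀ z, g * (g * z) = 0 := fun z => by rw [← mul_assoc, hg2, zero_mul]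
      have r3 : ∀ z, g * (f * z) = f * (g * z) := fun z => by rw [← mul_assoc, hgf, mul_assoc]
      have r4 : ∀ z, G * (f * z) = f * (G * z) := fun z => by rw [← mul_assoc, hGf, mul_assoc]
      have r5 : ∀ z, f * (y * z) = y * (f * z) := fun z => by rw [← mul_assoc, ← hyf, mul_assoc]
      have r6 : ∀ z, g * (y * z) = y * (g * z) := fun z => by rw [← mul_assoc, ← hyg, mul_assoc]
      have r7 : ∀ z, G * (y * z) = y * (G * z) := fun z => by rw [← mul_assoc, ← hyG, mul_assoc]
      have r8 : ∀ z, g * (G * (g * z)) = g * z := fun z => by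
        rw [← mul_assoc G, ← mul_assoc, hgGg]
      simp only [mul_add, add_mul, mul_assoc, hf2, hg2, r1, r2, r3, r4, r5, r6, r7, r8, hgGg,
        mul_zero, add_zero, zero_add, hgf]
    · rw [hx]
      generalize star f = F at *
      generalize star g = G at *
      have r1 : ∀ z, f * (f * z) = 0 := fun z => by rw [← mul_assoc, hf2, zero_mul]
      have r2 : ∀ z, g * (g * z) = 0 := fun z => by rw [← mul_assoc, hg2, zero_mul]
      have r3 : ∀ z, g * (f * z) = f * (g * z) := fun z => by rw [← mul_assoc, hgf, mul_assoc]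
      have r4 : ∀ z, G * (f * z) = f * (G * z) := fun z => by rw [← mul_assoc, hGf, mul_assoc]
      have r5 : ∀ z, f * (y * z) = y * (f * z) := fun z => by rw [← mul_assoc, ← hyf, mul_assoc]
      have r6 : ∀ z, g * (y * z) = y * (g * z) := fun z => by rw [← mul_assoc, ← hyg, mul_assoc]
      have r7 : ∀ z, G * (y * z) = y * (G * z) := fun z => by rw [← mul_assoc, ← hyG, mul_assoc]
      have r8 : ∀ z, g * (G * (g * z)) = g * z := fun z => by
        rw [← mul_assoc G, ← mul_assoc, hgGg]
      simp only [mul_add, add_mul, mul_assoc, hf2, hg2, r1, r2, r3, r4, r5, r6, r7, r8, hgGg,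
        mul_zero, add_zero, zero_add, hgf]
  obtain ⟨hxx, hxxx⟩ := key
  refine ⟨x, hxxx, ?_, ?_⟩
  · rintro z rfl
    exact hxM
  · intro N hN
    have hxN : x ∈ N := hN rfl
    have huN : f * g ∈ N := hxx ▸ mul_mem hxN hxN
    have huN' : star (f * g) ∈ N := star_mem huN
    -- e11 and e44
    have h11 : (f * g) * star (f * g) ∈ N := mul_mem huN huN'
    have h44 : star (f * g) * (f * g) ∈ N := mul_mem huN' huN
    have hyfg : (f * g) * star (f * g) * x * (star (f * g) * (f * g)) = y * (f * g) := by
      rw [hx, star_mul]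
      generalize star f = F at *
      generalize star g = G at *
      have r0 : ∀ z, F * (F * z) = 0 := fun z => by rw [← mul_assoc, hFF, zero_mul]
      have r1 : ∀ z, f * (f * z) = 0 := fun z => by rw [← mul_assoc, hf2, zero_mul]
      have r2 : ∀ z, g * (g * z) = 0 := fun z => by rw [← mul_assoc, hg2, zero_mul]
      have r2' : ∀ z, G * (G * z) = 0 := fun z => by rw [← mul_assoc, hGG, zero_mul]
      have r3 : ∀ z, g * (f * z) = f * (g * z) := fun z => by rw [← mul_assoc, hgf, mul_assoc]
      have r3' : ∀ z, g * (F * z) = F * (g * z) := fun z => by rw [← mul_assoc, hgF, mul_assoc]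
      have r4 : ∀ z, G * (f * z) = f * (G * z) := fun z => by rw [← mul_assoc, hGf, mul_assoc]
      have r4' : ∀ z, G * (F * z) = F * (G * z) := fun z => by rw [← mul_assoc, hGF, mul_assoc]
      have r5 : ∀ z, f * (y * z) = y * (f * z) := fun z => by rw [← mul_assoc, ← hyf, mul_assoc]
      have r5' : ∀ z, F * (y * z) = y * (F * z) := fun z => by rw [← mul_assoc, ← hyF, mul_assoc]
      have r6 : ∀ z, g * (y * z) = y * (g * z) := fun z => by rw [← mul_assoc, ← hyg, mul_assoc]
      have r7 : ∀ z, G * (y * z) = y * (G * z) := fun z => by rw [← mul_assoc, ← hyG, mul_assoc]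
      have r8 : ∀ z, g * (G * (g * z)) = g * z := fun z => by
        rw [← mul_assoc G, ← mul_assoc, hgGg]
      have r9 : ∀ z, f * (F * (f * z)) = f * z := fun z => by
        rw [← mul_assoc F, ← mul_assoc, hfFf]
      simp only [mul_add, add_mul, mul_assoc, hf2, hg2, hFF, hGG, r0, r1, r2, r2', r3, r3', r4,
        r4', r5, r5', r6, r7, r8, r9, hgGg, hfFf, hgF, hGF, hGf,
        mul_zero, add_zero, zero_add, hgf, zero_mul]
    have hyfgN : y * (f * g) ∈ N := hyfg ▸ mul_mem (mul_mem h11 hxN) h44
    have hE12 : (f * g) * star (f * g) * x - y * (f * g) = f * star f * g := by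
      rw [hx, star_mul]
      generalize star f = F at *
      generalize star g = G at *
      have r0 : ∀ z, F * (F * z) = 0 := fun z => by rw [← mul_assoc, hFF, zero_mul]
      have r1 : ∀ z, f * (f * z) = 0 := fun z => by rw [← mul_assoc, hf2, zero_mul]
      have r2 : ∀ z, g * (g * z) = 0 := fun z => by rw [← mul_assoc, hg2, zero_mul]
      have r2' : ∀ z, G * (G * z) = 0 := fun z => by rw [← mul_assoc, hGG, zero_mul]
      have r3 : ∀ z, g * (f * z) = f * (g * z) := fun z => by rw [← mul_assoc, hgf, mul_assoc]
      have r3' : ∀ z, g * (F * z) = F * (g * z) := fun z => by rw [← mul_assoc, hgF, mul_assoc]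
      have r4 : ∀ z, G * (f * z) = f * (G * z) := fun z => by rw [← mul_assoc, hGf, mul_assoc]
      have r4' : ∀ z, G * (F * z) = F * (G * z) := fun z => by rw [← mul_assoc, hGF, mul_assoc]
      have r5 : ∀ z, f * (y * z) = y * (f * z) := fun z => by rw [← mul_assoc, ← hyf, mul_assoc]
      have r5' : ∀ z, F * (y * z) = y * (F * z) := fun z => by rw [← mul_assoc, ← hyF, mul_assoc]
      have r6 : ∀ z, g * (y * z) = y * (g * z) := fun z => by rw [← mul_assoc, ← hyg, mul_assoc]
      have r7 : ∀ z, G * (y * z) = y * (G * z) := fun z => by rw [← mul_assoc, ← hyG, mul_assoc]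
      have r8 : ∀ z, g * (G * (g * z)) = g * z := fun z => by
        rw [← mul_assoc G, ← mul_assoc, hgGg]
      have r9 : ∀ z, f * (F * (f * z)) = f * z := fun z => by
        rw [← mul_assoc F, ← mul_assoc, hfFf]
      simp only [mul_add, add_mul, mul_assoc, hf2, hg2, hFF, hGG, r0, r1, r2, r2', r3, r3', r4,
        r4', r5, r5', r6, r7, r8, r9, hgGg, hfFf, hgF, hGF, hGf,
        mul_zero, add_zero, zero_add, hgf, zero_mul, add_sub_cancel_right]
    have hE12N : f * star f * g ∈ N := hE12 ▸ sub_mem (mul_mem h11 hxN) hyfgN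
    have hE24 : star (f * star f * g) * (f * star f * g) * x = f * (star g * g) := by
      rw [hx, star_mul, star_mul, star_star]
      generalize star f = F at *
      generalize star g = G at *
      have r0 : ∀ z, F * (F * z) = 0 := fun z => by rw [← mul_assoc, hFF, zero_mul]
      have r1 : ∀ z, f * (f * z) = 0 := fun z => by rw [← mul_assoc, hf2, zero_mul]
      have r2 : ∀ z, g * (g * z) = 0 := fun z => by rw [← mul_assoc, hg2, zero_mul]
      have r2' : ∀ z, G * (G * z) = 0 := fun z => by rw [← mul_assoc, hGG, zero_mul]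
      have r3 : ∀ z, g * (f * z) = f * (g * z) := fun z => by rw [← mul_assoc, hgf, mul_assoc]
      have r3' : ∀ z, g * (F * z) = F * (g * z) := fun z => by rw [← mul_assoc, hgF, mul_assoc]
      have r4 : ∀ z, G * (f * z) = f * (G * z) := fun z => by rw [← mul_assoc, hGf, mul_assoc]
      have r4' : ∀ z, G * (F * z) = F * (G * z) := fun z => by rw [← mul_assoc, hGF, mul_assoc]
      have r5 : ∀ z, f * (y * z) = y * (f * z) := fun z => by rw [← mul_assoc, ← hyf, mul_assoc]
      have r5' : ∀ z, F * (y * z) = y * (F * z) := fun z => by rw [← mul_assoc, ← hyF, mul_assoc]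
      have r6 : ∀ z, g * (y * z) = y * (g * z) := fun z => by rw [← mul_assoc, ← hyg, mul_assoc]
      have r7 : ∀ z, G * (y * z) = y * (G * z) := fun z => by rw [← mul_assoc, ← hyG, mul_assoc]
      have r8 : ∀ z, g * (G * (g * z)) = g * z := fun z => by
        rw [← mul_assoc G, ← mul_assoc, hgGg]
      have r9 : ∀ z, f * (F * (f * z)) = f * z := fun z => by
        rw [← mul_assoc F, ← mul_assoc, hfFf]
      simp only [mul_add, add_mul, mul_assoc, hf2, hg2, hFF, hGG, r0, r1, r2, r2', r3, r3', r4,
        r4', r5, r5', r6, r7, r8, r9, hgGg, hfFf, hgF, hGF, hGf,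
        mul_zero, add_zero, zero_add, hgf, zero_mul]
    have hE24N : f * (star g * g) ∈ N := hE24 ▸ mul_mem (mul_mem (star_mem hE12N) hE12N) hxN
    have hgN : g ∈ N := by
      have : g = x - f * (star g * g) - y * (f * g) := by rw [hx]; abel
      rw [this]
      exact sub_mem (sub_mem hxN hE24N) hyfgN
    have hgN' := star_mem hgN
    have hfN : f ∈ N := by
      have : f = f * g * star g + f * (star g * g) := by
        rw [mul_assoc f g, ← mul_add, hgg, mul_one]
      rw [this]
      exact add_mem (mul_mem huN hgN') hE24N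
    have hfN' := star_mem hfN
    have hyN' : y ∈ N := by
      apply mem_of_P_mul hg2 hgg N hgN hyg
      apply mem_of_P_mul hf2 hff N hfN
      · calc g * star g * y * f = g * star g * f * y := by rw [mul_assoc _ y, hyf, ← mul_assoc]
          _ = f * (g * star g * y) := by
            rw [mul_assoc g, hGf, ← mul_assoc, hgf]; simp only [mul_assoc]
      · have : f * star f * (g * star g * y) = y * (f * g) * star (f * g) := by
          rw [star_mul]
          have e1 : ∀ z, y * (f * z) = f * (y * z) := fun z => by
            rw [← mul_assoc, hyf, mul_assoc]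
          have e2 : ∀ z, y * (g * z) = g * (y * z) := fun z => by
            rw [← mul_assoc, hyg, mul_assoc]
          have e3 : ∀ z, y * (star g * z) = star g * (y * z) := fun z => by
            rw [← mul_assoc, hyG, mul_assoc]
          have e5 : ∀ z, star g * (star f * z) = star f * (star g * z) := fun z => by
            rw [← mul_assoc, hGF, mul_assoc]
          have e4 : ∀ z, g * (star f * z) = star f * (g * z) := fun z => by
            rw [← mul_assoc, hgF, mul_assoc]
          simp only [mul_assoc, e1, e2, e3, hyF, e4, e5]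
        rw [this]
        exact mul_mem hyfgN huN'
    apply le_of_unit hf2 hff hfM hfN
    have hg1' : g ∈ relComm M f := ⟨hgM, hgf, hgF⟩
    apply le_of_unit hg2 hgg hg1' hgN
    apply hyN
    rintro z rfl
    exact hyN'

end Vale.Agent.P085.H598
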