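import Vale.Agent.P085.H598.Basic

set_option autoImplicit false
set_option linter.unusedSectionVars false
set_option linter.unusedSimpArgs false
set_option linter.unusedVariables false

namespace Vale.Agent.P085.H598

open Vale.Agent.P085 TopologicalSpace

variable {H : Type*} [NormedAddCommGroup H] [InnerProductSpace ℂ H] [CompleteSpace H]

/-- a self-adjoint element can be scaled to norm at most `1`, remaining a generator -/
theorem exists_scaled_gen (Q : VonNeumannAlgebra H) {s : H →L[ℂ] H} (hs : s ∈ Q)
    (hss : star s = s) :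
    ∃ s' ∈ Q, star s' = s' ∧ ‖s'‖ ≤ 1 ∧ ∀ N : VonNeumannAlgebra H, s' ∈ N → s ∈ N := by
  have h1 : (0 : ℝ) < 1 + ‖s‖ := by positivity
  refine ⟨((1 / (1 + ‖s‖) : ℝ) : ℂ) • s, vn_smul_mem Q _ hs, ?_, ?_, ?_⟩
  · rw [star_smul, hss]; simp
  · rw [norm_smul, Complex.norm_real, Real.norm_eq_abs, abs_of_pos (by positivity), one_div,
      inv_mul_le_iff₀ h1]
    linarith
  · intro N hN
    have : s = ((1 + ‖s‖ : ℝ) : ℂ) • (((1 / (1 + ‖s‖) : ℝ) : ℂ) • s) := by
      rw [smul_smul, ← Complex.ofReal_mul, mul_one_div_cancel h1.ne', Complex.ofReal_one, one_smul]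
    rw [this]
    exact vn_smul_mem N _ hN

/-- `s w = 0` forces `w = 0` when `s * s = 1 - t * t` and `‖t‖ < 1` -/
theorem eq_zero_of_sqrt_mul {s t w : H →L[ℂ] H} (hst : s * s = 1 - t * t) (ht : ‖t‖ ≤ 1 / 2)
    (h : s * w = 0) : w = 0 := by
  have h1 : (1 - t * t) * w = 0 := by rw [← hst, mul_assoc, h, mul_zero]
  have h2 : w = t * t * w := by
    rw [sub_mul, one_mul, sub_eq_zero] at h1; exact h1
  have h3 : ‖w‖ ≤ 1 / 4 * ‖w‖ := by
    calc ‖w‖ = ‖t * t * w‖ := by rw [← h2]
      _ ≤ ‖t * t‖ * ‖w‖ := norm_mul_le _ _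
      _ ≤ (‖t‖ * ‖t‖) * ‖w‖ := by gcongr; exact norm_mul_le _ _
      _ ≤ (1 / 2 * (1 / 2)) * ‖w‖ := by gcongr
      _ = 1 / 4 * ‖w‖ := by ring
  have h4 : 0 ≤ ‖w‖ := norm_nonneg w
  have : ‖w‖ = 0 := by linarith
  exact norm_eq_zero.1 this

/-- every `II_1` factor on a separable space is generated by three projections -/
theorem exists_three_projections [SeparableSpace H] {M : VonNeumannAlgebra H}
    (hM : IsII1Factor M) :
    ∃ p q r : H →L[ℂ] H, IsStarProjection p ∧ IsStarProjection q ∧ IsStarProjection r ∧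
      IsGeneratedBy M {p, q, r} := by
  obtain ⟨e, heM, he2, hee⟩ := exists_unit hM
  have hM1 := isII1Factor_relComm hM he2 hee heM
  obtain ⟨a₀, ha₀, b₀, hb₀, ha₀s, hb₀s, hgen⟩ :=
    exists_pair_of_isSinglyGenerated (isSinglyGenerated_of_isII1Factor _ hM1)
  obtain ⟨a₁, ha₁, ha₁s, ha₁n, ha₁g⟩ := exists_scaled_gen _ ha₀ ha₀s
  obtain ⟨b, hb, hbs, hbn, hbg⟩ := exists_scaled_gen _ hb₀ hb₀s
  obtain ⟨a, ha⟩ : ∃ a, a = (1 / 2 : ℂ) • a₁ := ⟨_, rfl⟩
  have haQ : a ∈ relComm M e := ha ▸ vn_smul_mem _ _ ha₁
  have has : star a = a := by rw [ha, star_smul, ha₁s]; simp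
  have han : ‖a‖ ≤ 1 / 2 := by
    rw [ha, norm_smul]
    have : ‖(1 / 2 : ℂ)‖ = 1 / 2 := by simp
    rw [this]
    linarith
  obtain ⟨u, hu, hu1, hu2, hub⟩ := exists_unitary_of_selfAdjoint _ hb hbs hbn
  -- the square root
  obtain ⟨s, hs⟩ : ∃ s, s = CFC.sqrt (1 - a * a) := ⟨_, rfl⟩
  have h1 : 0 ≤ 1 - a * a := by
    have := star_mul_self_le_one (x := a) (by linarith)
    rw [has] at this
    exact sub_nonneg.2 this
  have hss : s * s = 1 - a * a := by rw [hs]; exact CFC.sqrt_mul_sqrt_self _ h1
  have hsst : star s = s := by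
    rw [hs]; exact IsSelfAdjoint.of_nonneg (CFC.sqrt_nonneg _)
  have hsN : ∀ N : VonNeumannAlgebra H, a ∈ N → s ∈ N := by
    intro N haN
    rw [hs]; exact vn_sqrt_mem N (sub_mem (one_mem _) (mul_mem haN haN))
  have hsQ : s ∈ relComm M e := hsN _ haQ
  have hsa : s * a = a * s := by
    have h1 : Commute (1 - a * a) a := by
      have : Commute a a := Commute.refl a
      exact (Commute.one_left a).sub_left (this.mul_left this)
    rw [hs]
    exact Commute.cfcₙ_nnreal h1 _
  obtain ⟨p, hp⟩ : ∃ p, p = e * star e := ⟨_, rfl⟩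
  obtain ⟨q, hq⟩ : ∃ q, q = (1 / 2 : ℂ) • (1 + (e + star e)) := ⟨_, rfl⟩
  obtain ⟨r, hr⟩ : ∃ r, r = (1 / 2 : ℂ) • ((1 + a) * (e * star e) + (s * u) * e +
    (star u * s) * star e + (star u * (1 - a) * u) * (star e * e)) := ⟨_, rfl⟩
  obtain ⟨haM, hae, haE⟩ := haQ
  obtain ⟨hsM, hse, hsE⟩ := hsQ
  obtain ⟨huM, hue, huE⟩ := hu
  have hu' := star_mem (S := VonNeumannAlgebra H) (s := M) huM
  have hUe : star u * e = e * star u := by
    have := congrArg star huE
    simpa only [star_mul, star_star] using this.symm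
  have hUE : star u * star e = star e * star u := by
    have := congrArg star hue
    simpa only [star_mul, star_star] using this.symm
  have hEE := mu_star_sq he2
  have heEe : e * (star e * e) = e := by rw [← mul_assoc]; exact mu_ese he2 hee
  have hEeE : star e * (e * star e) = star e := by rw [← mul_assoc]; exact mu_ses he2 hee
  have heM' := star_mem heM
  have hpp : p * p = p := by rw [hp]; exact mu_P_sq he2 hee
  have hps : star p = p := by rw [hp, star_mul, star_star]
  have hqs : star q = q := by
    rw [hq, star_smul, star_add, star_add, star_star, star_one, add_comm (star e)]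
    simp
  have hqq : q * q = q := by
    have h2 : (e + star e) * (e + star e) = 1 := by
      rw [add_mul, mul_add, mul_add, he2, hEE, zero_add, add_zero, hee]
    rw [hq, smul_mul_assoc, mul_smul_comm, smul_smul]
    obtain ⟨w, hw⟩ : ∃ w, w = e + star e := ⟨_, rfl⟩
    rw [← hw] at h2 ⊢
    have h3 : (1 + w) * (1 + w) = (2 : ℂ) • (1 + w) := by
      rw [add_mul, mul_add, mul_add, h2]
      simp only [one_mul, mul_one]
      module
    rw [h3, smul_smul]
    norm_num
  have hrs : star r = r := by
    rw [hr, star_smul]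
    simp only [star_add, star_mul, star_star, star_sub, star_one, hsst, has]
    have e1 : e * star e * (1 + a) = (1 + a) * (e * star e) := by
      rw [mul_add, add_mul, mul_one, one_mul, mul_assoc, ← haE, ← mul_assoc, ← hae, mul_assoc]
    have e2 : star e * (star u * s) = star u * s * star e := by
      rw [mul_assoc, hsE, ← mul_assoc, ← hUE, mul_assoc]
    have e3 : e * (s * u) = s * u * e := by
      rw [mul_assoc, hue, ← mul_assoc, ← hse, mul_assoc]
    have e4 : star e * e * (star u * ((1 - a) * u)) = star u * (1 - a) * u * (star e * e) := by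
      have e5 : ∀ z, e * (star u * z) = star u * (e * z) := fun z => by
        rw [← mul_assoc, ← hUe, mul_assoc]
      have e6 : ∀ z, star e * (star u * z) = star u * (star e * z) := fun z => by
        rw [← mul_assoc, ← hUE, mul_assoc]
      have e7 : ∀ z, e * (a * z) = a * (e * z) := fun z => by
        rw [← mul_assoc, ← hae, mul_assoc]
      have e8 : ∀ z, star e * (a * z) = a * (star e * z) := fun z => by
        rw [← mul_assoc, ← haE, mul_assoc]
      have e9 : ∀ z, star e * (u * z) = u * (star e * z) := fun z => by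
        rw [← mul_assoc, ← huE, mul_assoc]
      simp only [mul_assoc, sub_mul, one_mul, mul_sub, e5, e6, e7, e8, ← hue, e9]
    rw [e1, e2, e3, e4]
    have : star (1 / 2 : ℂ) = 1 / 2 := by simp
    rw [this]
    congr 1
    abel
  have hrr : r * r = r := by
    rw [hr]
    simp only [smul_mul_assoc, mul_smul_comm, smul_smul]
    have hsz : ∀ z, s * (s * z) = z - a * (a * z) := fun z => by
      rw [← mul_assoc, hss, sub_mul, one_mul, mul_assoc]
    have hsaz : ∀ z, s * (a * z) = a * (s * z) := fun z => by
      rw [← mul_assoc, hsa, mul_assoc]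
    have huU : ∀ z, u * (star u * z) = z := fun z => by rw [← mul_assoc, hu2, one_mul]
    generalize star u = U at *
    generalize star e = E at *
    have e5 : ∀ z, e * (U * z) = U * (e * z) := fun z => by
      rw [← mul_assoc, ← hUe, mul_assoc]
    have e6 : ∀ z, E * (U * z) = U * (E * z) := fun z => by
      rw [← mul_assoc, ← hUE, mul_assoc]
    have e7 : ∀ z, e * (a * z) = a * (e * z) := fun z => by
      rw [← mul_assoc, ← hae, mul_assoc]
    have e8 : ∀ z, E * (a * z) = a * (E * z) := fun z => by
      rw [← mul_assoc, ← haE, mul_assoc]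
    have e9 : ∀ z, E * (u * z) = u * (E * z) := fun z => by
      rw [← mul_assoc, ← huE, mul_assoc]
    have e10 : ∀ z, e * (u * z) = u * (e * z) := fun z => by
      rw [← mul_assoc, ← hue, mul_assoc]
    have e11 : ∀ z, e * (s * z) = s * (e * z) := fun z => by
      rw [← mul_assoc, ← hse, mul_assoc]
    have e12 : ∀ z, E * (s * z) = s * (E * z) := fun z => by
      rw [← mul_assoc, ← hsE, mul_assoc]
    have r1 : ∀ z, e * (e * z) = 0 := fun z => by rw [← mul_assoc, he2, zero_mul]
    have r2 : ∀ z, E * (E * z) = 0 := fun z => by rw [← mul_assoc, hEE, zero_mul]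
    have r3 : ∀ z, e * (E * (e * z)) = e * z := fun z => by
      rw [← mul_assoc E, ← mul_assoc, heEe]
    have r4 : ∀ z, E * (e * (E * z)) = E * z := fun z => by
      rw [← mul_assoc e, ← mul_assoc, hEeE]
    simp only [mul_add, add_mul, mul_sub, sub_mul, mul_assoc, one_mul, mul_one, e5, e6, e7, e8,
      e9, e10, e11, e12, r1, r2, r3, r4, he2, hEE, heEe, hEeE, hsz, hsaz, huU, mul_zero, add_zero,
      zero_add, sub_zero, zero_sub]
    module
  have hpM : p ∈ M := hp ▸ mul_mem heM heM'
  have hqM : q ∈ M := hq ▸ vn_smul_mem M _ (add_mem (one_mem M) (add_mem heM heM'))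
  have hrM : r ∈ M := by
    rw [hr]
    refine vn_smul_mem M _ (add_mem (add_mem (add_mem ?_ ?_) ?_) ?_)
    · exact mul_mem (add_mem (one_mem M) haM) (mul_mem heM heM')
    · exact mul_mem (mul_mem hsM huM) heM
    · exact mul_mem (mul_mem hu' hsM) heM'
    · exact mul_mem (mul_mem (mul_mem hu' (sub_mem (one_mem M) haM)) huM) (mul_mem heM' heM)
  refine ⟨p, q, r, ⟨hpp, hps⟩, ⟨hqq, hqs⟩, ⟨hrr, hrs⟩, ?_, ?_⟩
  · rintro z (rfl | rfl | rfl)
    · exact hpM
    · exact hqM
    · exact hrM
  · intro N hN
    have hpN : p ∈ N := hN (by simp)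
    have hqN : q ∈ N := hN (by simp)
    have hrN : r ∈ N := hN (by simp)
    have heN : e ∈ N := by
      have : e = (2 : ℂ) • (p * q * (1 - p)) := by
        rw [hp, mu_one_sub hee, hq]
        simp only [smul_mul_assoc, mul_smul_comm, smul_smul]
        have h3 : e * star e * (1 + (e + star e)) * (star e * e) = e := by
          generalize star e = E at *
          have r1 : ∀ z, e * (e * z) = 0 := fun z => by rw [← mul_assoc, he2, zero_mul]
          have r2 : ∀ z, E * (E * z) = 0 := fun z => by rw [← mul_assoc, hEE, zero_mul]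
          have r3 : ∀ z, e * (E * (e * z)) = e * z := fun z => by
            rw [← mul_assoc E, ← mul_assoc, heEe]
          simp only [mul_add, add_mul, mul_assoc, one_mul, mul_one, r1, r2, r3, heEe, mul_zero,
            add_zero, zero_add]
        rw [h3]
        norm_num
      rw [this]
      exact vn_smul_mem N _ (mul_mem (mul_mem hpN hqN) (sub_mem (one_mem N) hpN))
    have heN' := star_mem heN
    have h2r : (1 + a) * (e * star e) + (s * u) * e +
        (star u * s) * star e + (star u * (1 - a) * u) * (star e * e) ∈ N := by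
      have : (1 + a) * (e * star e) + (s * u) * e +
        (star u * s) * star e + (star u * (1 - a) * u) * (star e * e) = (2 : ℂ) • r := by
        rw [hr, smul_smul]; norm_num
      rw [this]
      exact vn_smul_mem N _ hrN
    obtain ⟨hA, hB, -, -⟩ := entries_mem N he2 hee (A := 1 + a) (B := s * u) (C := star u * s)
      (D := star u * (1 - a) * u)
      (by rw [add_mul, mul_add, one_mul, mul_one, hae])
      (by rw [add_mul, mul_add, one_mul, mul_one, haE])
      (by rw [mul_assoc, hue, ← mul_assoc, hse, mul_assoc])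
      (by rw [mul_assoc, huE, ← mul_assoc, hsE, mul_assoc])
      (by rw [mul_assoc, hse, ← mul_assoc, hUe, mul_assoc])
      (by rw [mul_assoc, hsE, ← mul_assoc, hUE, mul_assoc])
      (by
        have h5 : (1 - a) * e = e * (1 - a) := by rw [sub_mul, mul_sub, one_mul, mul_one, hae]
        rw [mul_assoc, hue, ← mul_assoc, mul_assoc (star u), h5, ← mul_assoc, hUe]
        simp only [mul_assoc])
      (by
        have h5 : (1 - a) * star e = star e * (1 - a) := by
          rw [sub_mul, mul_sub, one_mul, mul_one, haE]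
        rw [mul_assoc, huE, ← mul_assoc, mul_assoc (star u), h5, ← mul_assoc, hUE]
        simp only [mul_assoc])
      heN h2r
    have haN : a ∈ N := by
      have : a = (1 + a) - 1 := by abel
      rw [this]
      exact sub_mem hA (one_mem N)
    have hsN' : s ∈ N := hsN N haN
    have huN : u ∈ N := by
      apply vn_mem_of_commutes
      intro y hy
      have h6 : s * u * y = y * (s * u) := vn_commutes N hB hy
      have h7 : s * y = y * s := vn_commutes N hsN' hy
      have h8 : s * (y * u - u * y) = 0 := by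
        rw [mul_sub, ← mul_assoc, h7, ← mul_assoc, h6, mul_assoc, sub_self]
      exact sub_eq_zero.1 (eq_zero_of_sqrt_mul hss han h8)
    have hbN : b ∈ N := by
      have : b = (1 / 2 : ℂ) • (u + star u) := by
        rw [hub, smul_smul]; norm_num
      rw [this]
      exact vn_smul_mem N _ (add_mem huN (star_mem huN))
    apply le_of_unit he2 hee heM heN
    apply hgen N
    · apply ha₁g
      have : a₁ = (2 : ℂ) • a := by rw [ha, smul_smul]; norm_num
      rw [this]
      exact vn_smul_mem N _ haN
    · exact hbg N hbN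

/-- two projections never generate a `II_1` factor -/
theorem not_generated_two_projections {M : VonNeumannAlgebra H} (hM : IsII1Factor M)
    {p q : H →L[ℂ] H} (hp : IsStarProjection p) (hq : IsStarProjection q) :
    ¬ IsGeneratedBy M {p, q} := by
  intro hgen
  have hpp : p * p = p := hp.isIdempotentElem
  have hqq : q * q = q := hq.isIdempotentElem
  have hps : star p = p := hp.isSelfAdjoint
  have hqs : star q = q := hq.isSelfAdjoint
  have hpM : p ∈ M := hgen.1 (by simp)
  have hqM : q ∈ M := hgen.1 (by simp)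
  obtain ⟨a, ha⟩ : ∃ a, a = (p - q) * (p - q) := ⟨_, rfl⟩
  have haM : a ∈ M := ha ▸ mul_mem (sub_mem hpM hqM) (sub_mem hpM hqM)
  have hpz : ∀ z, p * (p * z) = p * z := fun z => by rw [← mul_assoc, hpp]
  have hqz : ∀ z, q * (q * z) = q * z := fun z => by rw [← mul_assoc, hqq]
  have hap : a * p = p * a := by
    rw [ha]; simp only [mul_sub, sub_mul, mul_assoc, hpp, hqq, hpz, hqz]; abel
  have haq : a * q = q * a := by
    rw [ha]; simp only [mul_sub, sub_mul, mul_assoc, hpp, hqq, hpz, hqz]; abel
  obtain ⟨c, hc⟩ := scalar_of_gen hM hgen haM (by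
    rintro z (rfl | rfl)
    · rw [hps]; exact ⟨hap, hap⟩
    · rw [hqs]; exact ⟨haq, haq⟩)
  -- q in terms of corners
  have h1 : p * q * p = (1 - c) • p := by
    have h2 : p * a * p = c • p := by rw [hc, mul_smul_comm, smul_mul_assoc, mul_one, hpp]
    have h3 : p * a * p = p - p * q * p := by
      rw [ha]; simp only [mul_sub, sub_mul, mul_assoc, hpp, hqq, hpz, hqz]; abel
    rw [h3] at h2
    rw [sub_smul, one_smul, ← h2]; abel
  have h1' : (1 - p) * q * (1 - p) = c • (1 - p) := by
    have h2 : (1 - p) * a * (1 - p) = c • (1 - p) := by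
      rw [hc, mul_smul_comm, smul_mul_assoc, mul_one]
      congr 1
      simp only [mul_sub, sub_mul, mul_one, one_mul, hpp]; abel
    rw [← h2, ha]
    simp only [mul_sub, sub_mul, mul_assoc, hpp, hqq, hpz, hqz, mul_one, one_mul]; abel
  obtain ⟨x, hx⟩ : ∃ x, x = p * q * (1 - p) := ⟨_, rfl⟩
  have hxs : star x = (1 - p) * q * p := by
    rw [hx]; simp only [star_mul, star_sub, star_one, hps, hqs, mul_assoc]
  have hqx : q = (1 - c) • p + c • (1 - p) + x + star x := by
    rw [hxs, hx, ← h1, ← h1']
    simp only [mul_sub, sub_mul, mul_assoc, mul_one, one_mul]; abel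
  have hx2 : x * x = 0 := by
    rw [hx]
    have : (1 - p) * p = 0 := by rw [sub_mul, one_mul, hpp, sub_self]
    calc p * q * (1 - p) * (p * q * (1 - p)) = p * q * ((1 - p) * p) * (q * (1 - p)) := by
          simp only [mul_assoc]
      _ = 0 := by rw [this, mul_zero, zero_mul]
  have hxx : x * star x = (c * (1 - c)) • p := by
    have h5 : (1 - p) * (1 - p) = 1 - p := by
      simp only [mul_sub, sub_mul, mul_one, one_mul, hpp]; abel
    rw [hxs, hx]
    calc p * q * (1 - p) * ((1 - p) * q * p) = p * q * ((1 - p) * (1 - p)) * q * p := by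
          simp only [mul_assoc]
      _ = p * (q * q) * p - p * q * p * (q * p) := by
          rw [h5]; simp only [mul_sub, sub_mul, mul_assoc, mul_one, one_mul]
      _ = (c * (1 - c)) • p := by
          have h6 : p * q * p * (q * p) = (1 - c) • ((1 - c) • p) := by
            rw [h1, smul_mul_assoc, ← mul_assoc, h1]
          rw [hqq, h6, h1]
          module
  by_cases h0 : c * (1 - c) = 0
  · -- x = 0, so M is generated by p
    have hx0 : x = 0 := by
      have h7 : x * star x = 0 := by rw [hxx, h0, zero_smul]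
      exact CStarRing.mul_star_self_eq_zero_iff x |>.1 h7
    have hqp : q = (1 - c) • p + c • (1 - p) := by
      rw [hqx, hx0]; simp
    apply false_of_scalar hM.2.1
    have hpc : ∃ d : ℂ, p = d • 1 := by
      apply scalar_of_gen hM hgen hpM
      rintro z (rfl | rfl)
      · rw [hps]; exact ⟨rfl, rfl⟩
      · rw [hqs, hqp]
        have : p * ((1 - c) • p + c • (1 - p)) = ((1 - c) • p + c • (1 - p)) * p := by
          simp only [mul_add, add_mul, mul_smul_comm, smul_mul_assoc, mul_sub, sub_mul, mul_one,
            one_mul]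
        exact ⟨this, this⟩
    obtain ⟨d, hd⟩ := hpc
    intro z hz
    apply scalar_of_gen hM hgen hz
    have hzp : z * p = p * z := by
      rw [hd, mul_smul_comm, smul_mul_assoc, mul_one, one_mul]
    have hzq : z * q = q * z := by
      rw [hqp]
      simp only [mul_add, add_mul, mul_smul_comm, smul_mul_assoc, mul_sub, sub_mul, mul_one,
        one_mul, hzp]
    rintro w (rfl | rfl)
    · rw [hps]; exact ⟨hzp, hzp⟩
    · rw [hqs]; exact ⟨hzq, hzq⟩
  · -- M is generated by x
    apply not_generated_sq_zero hM hx2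
    have hxM : x ∈ M := hx ▸ mul_mem (mul_mem hpM hqM) (sub_mem (one_mem M) hpM)
    refine ⟨by rintro z rfl; exact hxM, fun N hN => hgen.2 N ?_⟩
    have hxN : x ∈ N := hN rfl
    have hpN : p ∈ N := by
      have : p = (c * (1 - c))⁻¹ • (x * star x) := by
        rw [hxx, smul_smul, inv_mul_cancel₀ h0, one_smul]
      rw [this]
      exact vn_smul_mem N _ (mul_mem hxN (star_mem hxN))
    have hqN : q ∈ N := by
      rw [hqx]
      exact add_mem (add_mem (add_mem (vn_smul_mem N _ hpN)
        (vn_smul_mem N _ (sub_mem (one_mem N) hpN))) hxN) (star_mem hxN)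
    rintro z (rfl | rfl)
    · exact hpN
    · exact hqN

end Vale.Agent.P085.H598
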