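import Vale.Agent.P085.H598.Basic
import Vale.Agent.P085.H598.Defs

set_option autoImplicit false
set_option linter.unusedSectionVars false
set_option linter.unusedSimpArgs false
set_option linter.unusedVariables false

namespace Vale.Agent.P085.H598

open Vale.Agent.P085 TopologicalSpace

variable {H : Type*} [NormedAddCommGroup H] [InnerProductSpace ℂ H] [CompleteSpace H]

/-- the key step: the matrix `(y 1; 0 0)` generates -/
theorem step_gen {M : VonNeumannAlgebra H} {e : H →L[ℂ] H} (he2 : e * e = 0)
    (hee : e * star e + star e * e = 1) (heM : e ∈ M) {y : H →L[ℂ] H}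
    (hy : IsGeneratedBy (relComm M e) {y}) : IsGeneratedBy M {y * (e * star e) + e} := by
  obtain ⟨hyM, hye, hyE⟩ := (hy.1 rfl : y ∈ relComm M e)
  have heM' := star_mem heM
  refine ⟨by rintro z rfl; exact add_mem (mul_mem hyM (mul_mem heM heM')) heM, fun N hN => ?_⟩
  obtain ⟨x, hx⟩ : ∃ x, x = y * (e * star e) + e := ⟨_, rfl⟩
  have hxN : x ∈ N := hx ▸ hN rfl
  obtain ⟨P, hP⟩ : ∃ P, P = e * star e := ⟨_, rfl⟩
  have hPP : P * P = P := by rw [hP]; exact mu_P_sq he2 hee
  have hPs : star P = P := by rw [hP, star_mul, star_star]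
  have hyP : y * P = P * y := by
    rw [hP, ← mul_assoc, hye, mul_assoc, hyE, mul_assoc]
  have hysP : star y * P = P * star y := by
    have := congrArg star hyP
    simpa only [star_mul, hPs] using this.symm
  have heP : e * P = 0 := by rw [hP, ← mul_assoc, he2, zero_mul]
  have hPE : P * star e = 0 := by
    have := congrArg star heP
    simpa only [star_mul, hPs, star_zero] using this
  have hxx : x * star x = (1 + y * star y) * P := by
    rw [hx, ← hP, star_add, star_mul, hPs, add_mul, mul_add, mul_add]
    have h1 : y * P * (P * star y) = y * star y * P := by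
      rw [mul_assoc, ← mul_assoc P, hPP, ← hysP, mul_assoc]
    have h2 : y * P * star e = 0 := by rw [mul_assoc, hPE, mul_zero]
    have h3 : e * (P * star y) = 0 := by rw [← mul_assoc, heP, zero_mul]
    rw [h1, h2, h3, ← hP]
    rw [add_mul, one_mul]; abel
  obtain ⟨T, hT⟩ : ∃ T, T = 1 + y * star y := ⟨_, rfl⟩
  rw [← hT] at hxx
  have hTP : T * P = P * T := by
    rw [hT, add_mul, mul_add, one_mul, mul_one, mul_assoc, hysP, ← mul_assoc, hyP, mul_assoc]
  have hTs : star T = T := by
    rw [hT, star_add, star_one, star_mul, star_star]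
  have hXN : T * P ∈ N := hxx ▸ mul_mem hxN (star_mem hxN)
  have key : ∀ z ∈ N.commutant, P * z * (1 - P) = 0 := by
    intro z hz
    have h1 : (1 - P) * star z * P * T = 0 := by
      have h2 : T * P * star z = star z * (T * P) := vn_commutes N hXN (star_mem hz)
      have h3 : (1 - P) * (T * P) = 0 := by
        rw [sub_mul, one_mul, hTP, ← mul_assoc, hPP, sub_self]
      calc (1 - P) * star z * P * T = (1 - P) * (star z * (P * T)) := by simp only [mul_assoc]
        _ = (1 - P) * (T * P) * star z := by rw [← hTP, ← h2]; simp only [mul_assoc]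
        _ = 0 := by rw [h3, zero_mul]
    have h4 : T * (P * z * (1 - P)) = 0 := by
      have := congrArg star h1
      simpa only [star_mul, star_sub, star_one, hPs, hTs, star_star, star_zero, mul_assoc]
        using this
    rw [hT] at h4
    exact eq_zero_of_one_add (mul_star_self_nonneg y) h4
  have hPN : P ∈ N := by
    apply vn_mem_of_commutes
    intro z hz
    have h1 := key z hz
    have h2 := key (star z) (star_mem hz)
    have h3 : (1 - P) * z * P = 0 := by
      have := congrArg star h2
      simpa only [mul_assoc, star_mul, star_sub, star_one, hPs, star_star, star_zero] using this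
    have e1 : P * z = P * z * P := by
      rw [mul_sub, mul_one, sub_eq_zero] at h1; exact h1
    have e2 : z * P = P * z * P := by
      rw [sub_mul, one_mul, sub_mul, sub_eq_zero] at h3; exact h3
    rw [e1, e2]
  have heN : e ∈ N := by
    have h1 : e = x - x * P := by
      rw [hx, ← hP, add_mul, heP, add_zero, mul_assoc, hPP]; abel
    rw [h1]
    exact sub_mem hxN (mul_mem hxN hPN)
  have hyN : y ∈ N := by
    apply mem_of_P_mul he2 hee N heN hye
    rw [← hP, ← hyP]
    have h1 : y * P = x * P := by
      rw [hx, ← hP, add_mul, heP, add_zero, mul_assoc, hPP]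
    rw [h1]
    exact mul_mem hxN hPN
  apply le_of_unit he2 hee heM heN
  apply hy.2
  rintro z rfl
  exact hyN

theorem exists_sparse_aux [SeparableSpace H] (k : ℕ) : ∀ {M : VonNeumannAlgebra H},
    IsII1Factor M → ∃ (ι : Type) (_ : Fintype ι) (p : ι → (H →L[ℂ] H)) (x : H →L[ℂ] H),
      Fintype.card ι = 2 ^ k ∧ IsPartition M p ∧ IsGeneratedBy M {x} ∧
      {ij : ι × ι | p ij.1 * x * p ij.2 ≠ 0}.ncard ≤ 2 ^ k := by
  induction k with
  | zero =>
    intro M hM
    obtain ⟨x, hx⟩ := isSinglyGenerated_of_isII1Factor M hM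
    refine ⟨Unit, inferInstance, fun _ => 1, x, by simp, ⟨fun _ => one_mem M, fun _ => .one _, ?_, ?_,
      ?_⟩, hx, ?_⟩
    · intro i j h
      exact absurd (Subsingleton.elim i j) h
    · simp
    · intro i j
      exact ⟨1, one_mem M, by simp, by simp⟩
    · refine (Set.ncard_le_card _).trans ?_
      simp
  | succ k ih =>
    intro M hM
    obtain ⟨e, heM, he2, hee⟩ := exists_unit hM
    obtain ⟨ι, hι, p, y, hcard, hp, hy, hsupp⟩ := ih (isII1Factor_relComm hM he2 hee heM)
    have hPP : e * star e * (e * star e) = e * star e := mu_P_sq he2 hee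
    have heEe : e * star e * e = e := mu_ese he2 hee
    have hEeE : star e * e * star e = star e := mu_ses he2 hee
    have hEE := mu_star_sq he2
    have heM' := star_mem heM
    have hyy : y ∈ relComm M e := hy.1 rfl
    have cP : ∀ z ∈ relComm M e, z * (e * star e) = e * star e * z := fun z hz => by
      rw [← mul_assoc, hz.2.1, mul_assoc, hz.2.2, mul_assoc]
    have cQ : ∀ z ∈ relComm M e, z * (star e * e) = star e * e * z := fun z hz => by
      rw [← mul_assoc, hz.2.2, mul_assoc, hz.2.1, mul_assoc]
    obtain ⟨P, hP⟩ : ∃ P, P = e * star e := ⟨_, rfl⟩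
    obtain ⟨Q, hQ⟩ : ∃ Q, Q = star e * e := ⟨_, rfl⟩
    have hQQ : Q * Q = Q := by rw [hQ, ← mul_assoc, hEeE]
    have hPQ : P * Q = 0 := by
      rw [hP, hQ, mul_assoc, ← mul_assoc (star e), hEE, zero_mul, mul_zero]
    have hQP : Q * P = 0 := by
      rw [hP, hQ, mul_assoc, ← mul_assoc e, he2, zero_mul, mul_zero]
    have hPs : star P = P := by rw [hP, star_mul, star_star]
    have hQs : star Q = Q := by rw [hQ, star_mul, star_star]
    have heP : e * P = 0 := by rw [hP, ← mul_assoc, he2, zero_mul]
    have hQe : Q * e = 0 := by rw [hQ, mul_assoc, he2, mul_zero]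
    have hPe : P * e = e := by rw [hP, heEe]
    have heQ : e * Q = e := by rw [hQ, ← mul_assoc, heEe]
    have hPQ1 : P + Q = 1 := by rw [hP, hQ, hee]
    rw [← hP] at hPP
    have hPM : P ∈ M := hP ▸ mul_mem heM heM'
    have hQM : Q ∈ M := hQ ▸ mul_mem heM' heM
    have cP' : ∀ z ∈ relComm M e, z * P = P * z := fun z hz => by rw [hP]; exact cP z hz
    have cQ' : ∀ z ∈ relComm M e, z * Q = Q * z := fun z hz => by rw [hQ]; exact cQ z hz
    let u : Bool → (H →L[ℂ] H) := fun b => bif b then P else Q
    have hu1 : ∀ b, u b * u b = u b := by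
      rintro (_ | _)
      · exact hQQ
      · exact hPP
    have hu2 : ∀ b c, b ≠ c → u b * u c = 0 := by
      rintro (_ | _) (_ | _) h
      · exact absurd rfl h
      · exact hQP
      · exact hPQ
      · exact absurd rfl h
    have hus : ∀ b, star (u b) = u b := by
      rintro (_ | _)
      · exact hQs
      · exact hPs
    have huM : ∀ b, u b ∈ M := by
      rintro (_ | _)
      · exact hQM
      · exact hPM
    have cu : ∀ b, ∀ z ∈ relComm M e, z * u b = u b * z := by
      rintro (_ | _) z hz
      · exact cQ' z hz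
      · exact cP' z hz
    refine ⟨ι × Bool, inferInstance, fun i => p i.1 * u i.2, y * P + e, ?_, ⟨?_, ?_, ?_, ?_, ?_⟩,
      ?_, ?_⟩
    · rw [Fintype.card_prod, hcard, Fintype.card_bool, pow_succ]
    · intro i
      exact mul_mem (hp.mem i.1).1 (huM i.2)
    · intro i
      have h1 : p i.1 * p i.1 = p i.1 := (hp.proj i.1).isIdempotentElem
      have h2 : star (p i.1) = p i.1 := (hp.proj i.1).isSelfAdjoint
      have h3 := cu i.2 _ (hp.mem i.1)
      constructor
      · change p i.1 * u i.2 * (p i.1 * u i.2) = p i.1 * u i.2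
        rw [mul_assoc, ← mul_assoc (u i.2), ← h3, mul_assoc, hu1, ← mul_assoc, h1]
      · change star (p i.1 * u i.2) = p i.1 * u i.2
        rw [star_mul, h2, hus, h3]
    · rintro ⟨i, b⟩ ⟨j, c⟩ hij
      have h3 := cu b _ (hp.mem j)
      change p i * u b * (p j * u c) = 0
      rw [mul_assoc, ← mul_assoc (u b), ← h3, mul_assoc, ← mul_assoc]
      by_cases h : i = j
      · have hbc : b ≠ c := by
          rintro rfl
          exact hij (by rw [h])
        rw [hu2 b c hbc, mul_zero]
      · rw [hp.orth i j h, zero_mul]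
    · rw [Fintype.sum_prod_type]
      simp only [Fintype.sum_bool]
      have : ∀ i, p i * u true + p i * u false = p i := fun i => by
        simp only [u, cond_true, cond_false]
        rw [← mul_add, hPQ1, mul_one]
      rw [Finset.sum_congr rfl fun i _ => this i]
      exact hp.sum
    · rintro ⟨i, b⟩ ⟨j, c⟩
      obtain ⟨v, hv, hv1, hv2⟩ := hp.equiv i j
      have hvs := star_mem hv
      -- a partial isometry from `u b` to `u c`
      obtain ⟨w, hw, hw1, hw2, hwc⟩ : ∃ w ∈ M, star w * w = u b ∧ w * star w = u c ∧
          ∀ z ∈ relComm M e, z * w = w * z := by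
        rcases b with _ | _ <;> rcases c with _ | _
        · exact ⟨Q, hQM, by simp [u, hQs, hQQ], by simp [u, hQs, hQQ], cQ'⟩
        · exact ⟨e, heM, by simp [u, hQ], by simp [u, hP], fun z hz => hz.2.1⟩
        · exact ⟨star e, heM', by simp [u, hP], by simp [u, hQ], fun z hz => hz.2.2⟩
        · exact ⟨P, hPM, by simp [u, hPs, hPP], by simp [u, hPs, hPP], cP'⟩
      refine ⟨v * w, mul_mem hv.1 hw, ?_, ?_⟩
      · change star (v * w) * (v * w) = p i * u b
        rw [star_mul, mul_assoc, ← mul_assoc (star v), hv1, hwc _ (hp.mem i), ← mul_assoc, hw1,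
          cu b _ (hp.mem i)]
      · change v * w * star (v * w) = p j * u c
        rw [star_mul, mul_assoc, ← mul_assoc w, hw2, ← cu c _ hvs, ← mul_assoc, hv2]
    · rw [hP]
      exact step_gen he2 hee heM hy
    · -- the support
      have hsub : {ij : (ι × Bool) × (ι × Bool) |
            p ij.1.1 * u ij.1.2 * (y * P + e) * (p ij.2.1 * u ij.2.2) ≠ 0} ⊆
          ((fun ij : ι × ι => ((ij.1, true), (ij.2, true))) ''
            {ij : ι × ι | p ij.1 * y * p ij.2 ≠ 0}) ∪
          Set.range (fun i : ι => ((i, true), (i, false))) := by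
        rintro ⟨⟨i, b⟩, ⟨j, c⟩⟩ hne
        simp only [Set.mem_ofPred_eq] at hne
        have hpj := hp.mem j
        have hpi := hp.mem i
        rcases b with _ | _
        · exfalso
          apply hne
          have h1 : Q * (y * P + e) = 0 := by
            rw [mul_add, hQe, add_zero, cP' y hyy, ← mul_assoc, hQP, zero_mul]
          have h2 : u false = Q := rfl
          rw [h2, mul_assoc (p i), h1, mul_zero, zero_mul]
        · rcases c with _ | _
          · right
            refine ⟨i, ?_⟩
            have hij : i = j := by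
              by_contra h
              apply hne
              have h2 : u false = Q := rfl
              have h3 : u true = P := rfl
              have h4 : P * (y * P + e) * (p j * Q) = p j * e := by
                rw [cQ' _ hpj, ← mul_assoc, mul_assoc P, add_mul, mul_assoc y, hPQ, mul_zero,
                  zero_add, heQ, hPe, hpj.2.1]
              rw [h2, h3, mul_assoc (p i), mul_assoc, h4, ← mul_assoc, hp.orth i j h, zero_mul]
            rw [hij]
          · left
            refine ⟨(i, j), ?_, rfl⟩
            intro h0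
            change p i * y * p j = 0 at h0
            apply hne
            have h3 : u true = P := rfl
            have h4 : (y * P + e) * (p j * P) = y * p j * P := by
              rw [cP' _ hpj, ← mul_assoc, add_mul, heP, add_zero, mul_assoc y, hPP, mul_assoc,
                ← cP' _ hpj, mul_assoc]
            rw [h3, mul_assoc (p i * P), h4, cP' _ hpi, mul_assoc P, ← mul_assoc (p i),
              ← mul_assoc (p i), h0, zero_mul, mul_zero]
      refine (Set.ncard_le_ncard hsub (Set.toFinite _)).trans ?_
      refine (Set.ncard_union_le _ _).trans ?_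
      have h1 : ((fun ij : ι × ι => ((ij.1, true), (ij.2, true))) ''
            {ij : ι × ι | p ij.1 * y * p ij.2 ≠ 0}).ncard ≤ 2 ^ k :=
        (Set.ncard_image_le (Set.toFinite _)).trans hsupp
      have h2 : (Set.range (fun i : ι => ((i, true), (i, false)))).ncard ≤ 2 ^ k := by
        rw [← Set.image_univ]
        refine (Set.ncard_image_le (Set.toFinite _)).trans ?_
        rw [Set.ncard_univ, Nat.card_eq_fintype_card, hcard]
      rw [pow_succ]
      omega

/-- every `II_1` factor on a separable space has, for every `k`, a generator with at most `2 ^ k`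
nonzero entries out of `4 ^ k` in a suitable matrix decomposition -/
theorem exists_sparse [SeparableSpace H] {M : VonNeumannAlgebra H} (hM : IsII1Factor M) (k : ℕ) :
    ∃ (p : Fin (2 ^ k) → (H →L[ℂ] H)) (x : H →L[ℂ] H), IsPartition M p ∧ IsGeneratedBy M {x} ∧
      {ij : Fin (2 ^ k) × Fin (2 ^ k) | p ij.1 * x * p ij.2 ≠ 0}.ncard ≤ 2 ^ k := by
  obtain ⟨ι, hι, p, x, hcard, hp, hx, hs⟩ := exists_sparse_aux k hM
  obtain ⟨f⟩ : Nonempty (Fin (2 ^ k) ≃ ι) := by
    rw [← hcard]; exact ⟨(Fintype.equivFin ι).symm⟩
  refine ⟨fun i => p (f i), x, ⟨fun i => hp.mem _, fun i => hp.proj _,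
    fun i j h => hp.orth _ _ fun h' => h (f.injective h'), ?_, fun i j => hp.equiv _ _⟩, hx, ?_⟩
  · rw [← hp.sum]
    exact f.sum_comp p
  · refine le_trans ?_ hs
    have : (fun ij : Fin (2 ^ k) × Fin (2 ^ k) => (f ij.1, f ij.2)) ''
        {ij : Fin (2 ^ k) × Fin (2 ^ k) | p (f ij.1) * x * p (f ij.2) ≠ 0} ⊆
        {ij : ι × ι | p ij.1 * x * p ij.2 ≠ 0} := by
      rintro _ ⟨ij, hij, rfl⟩
      exact hij
    rw [← Set.ncard_image_of_injective (f := fun ij : Fin (2 ^ k) × Fin (2 ^ k) =>
      (f ij.1, f ij.2)) _ (fun a b h => Prod.ext (f.injective (congrArg Prod.fst h))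
        (f.injective (congrArg Prod.snd h)))]
    exact Set.ncard_le_ncard this (Set.toFinite _)

end Vale.Agent.P085.H598
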